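import Vale.Agent.P165.EX.RowsSL

/-!
# Linear volume and small elements for any size and any relation of children

The master inequality for a relation between children and parents gives linear volume of the
windows and, with a count of the elements of bounded size, small mass of the small elements.
-/

namespace Vale.Agent.P165.EX.Multi

open Finset FF

variable {Γ O ι : Type} [Group Γ] [DecidableEq Γ] [DecidableEq O] [Fintype ι]
  {G : SimpleGraph (Γ × O)} {nb : Γ × O → ι → Γ × O}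

/-- The master inequality for children along one relation. -/
def MasterRel (nb : Γ × O → ι → Γ × O) (o₁ : O) (p₀ : ℝ) (F : Finset Γ) (Rel : Γ → Γ → Prop) :
    Prop :=
  ∃ C₁ : ℝ, 0 ≤ C₁ ∧ ∀ S : Finset Γ, S.Nonempty → ∃ CS : ℝ, 0 ≤ CS ∧
    ∀ q, p₀ ≤ q → q ≤ 1 → Witness nb q → ∀ ε : ℝ, 0 ≤ ε →
      (∀ X : Finset (Γ × O), ∑ x ∈ X, (∑ g ∈ S, T nb q (g, o₁) x) ^ 2 ≤ (ε * S.card) ^ 2) →
    ∀ U : Finset Γ, (∀ U' : Finset Γ, ∑ g ∈ U', anc nb o₁ q g ≤ 2 * ∑ g ∈ U, anc nb o₁ q g) →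
    ∀ (m : ℕ) (o : O) (W₀ : Finset (Γ × O)), W₀ ⊆ QT.wball nb ((1 : Γ), o) m →
    ∀ r : ℝ, 0 < r → r ≤ 1 → (∀ w ∈ W₀, r ≤ T nb q ((1 : Γ), o) w) →
    ∀ R : Γ → Γ → Γ, (∀ z h, R z h ∈ F ∧ Rel (z * R z h * h) z) →
    ∀ Y : Finset Γ, (∀ w ∈ W₀, ∀ g ∈ S, ∀ h ∈ U, w.1 * R w.1 (g * h) * (g * h) ∈ Y) →
      (∑ w ∈ W₀, winT nb q m o w) * ∑ g ∈ U, anc nb o₁ q g ≤
        C₁ * ε * (∑ w ∈ QT.wball nb ((1 : Γ), o) m, winT nb q m o w) *
            ∑ g ∈ U, anc nb o₁ q g +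
          CS * (1 + Real.log (1 / r)) * ∑ y ∈ Y, T nb q ((1 : Γ), o) (y, o₁)

variable [Fintype O]

/-- The children of half of the anchored mass against a bound on their mass. -/
theorem window_le (hl : Labelling G nb) (hinv : Inv G) {o₁ : O} {p₀ q C₁ CS ε r Cc : ℝ}
    {F S : Finset Γ} {Rel : Γ → Γ → Prop}
    (hM : ∀ U : Finset Γ, (∀ U' : Finset Γ, ∑ g ∈ U', anc nb o₁ q g ≤ 2 * ∑ g ∈ U, anc nb o₁ q g) →
      ∀ (m : ℕ) (o : O) (W₀ : Finset (Γ × O)), W₀ ⊆ QT.wball nb ((1 : Γ), o) m →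
      ∀ r : ℝ, 0 < r → r ≤ 1 → (∀ w ∈ W₀, r ≤ T nb q ((1 : Γ), o) w) →
      ∀ R : Γ → Γ → Γ, (∀ z h, R z h ∈ F ∧ Rel (z * R z h * h) z) →
      ∀ Y : Finset Γ, (∀ w ∈ W₀, ∀ g ∈ S, ∀ h ∈ U, w.1 * R w.1 (g * h) * (g * h) ∈ Y) →
        (∑ w ∈ W₀, winT nb q m o w) * ∑ g ∈ U, anc nb o₁ q g ≤
          C₁ * ε * (∑ w ∈ QT.wball nb ((1 : Γ), o) m, winT nb q m o w) *
              ∑ g ∈ U, anc nb o₁ q g +
            CS * (1 + Real.log (1 / r)) * ∑ y ∈ Y, T nb q ((1 : Γ), o) (y, o₁))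
    (hq : p₀ ≤ q) (hq0 : 0 ≤ q) (hq1 : q ≤ 1) (hw : Witness nb q)
    (hmove : ∀ q, p₀ ≤ q → q ≤ 1 → ∀ (o : O) (Y : Finset Γ),
      ∑ y ∈ Y, T nb q ((1 : Γ), o) (y, o₁) ≤ Cc * ∑ y ∈ Y, anc nb o₁ q y)
    (hCS : 0 ≤ CS) (hCc : 0 ≤ Cc) (hR : ∃ R : Γ → Γ → Γ, ∀ z h, R z h ∈ F ∧ Rel (z * R z h * h) z)
    (m : ℕ) (o : O) {W₀ : Finset (Γ × O)} (hW : W₀ ⊆ QT.wball nb ((1 : Γ), o) m)
    (hr : 0 < r) (hr1 : r ≤ 1) (hlow : ∀ w ∈ W₀, r ≤ T nb q ((1 : Γ), o) w) :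
    ∑ w ∈ W₀, winT nb q m o w ≤
      C₁ * ε * (∑ w ∈ QT.wball nb ((1 : Γ), o) m, winT nb q m o w) +
        CS * (1 + Real.log (1 / r)) * (Cc * 2) := by
  classical
  obtain ⟨R, hR⟩ := hR
  obtain ⟨U, hU1, hU⟩ := rowsExistsHalf hl hinv o₁ hq0 hq1 hw
  set Y := Finset.image (fun u : ((Γ × O) × Γ) × Γ =>
    u.1.1.1 * R u.1.1.1 (u.1.2 * u.2) * (u.1.2 * u.2)) ((W₀ ×ˢ S) ×ˢ U)
  exact mass_le hCS hr hr1 hCc hU1
    (hM U hU m o W₀ hW r hr hr1 hlow R hR Y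
      fun w hw g hg h hh => mem_image.2 ⟨((w, g), h), by simp [hw, hg, hh], rfl⟩)
    (hmove q hq hq1 o Y) (hU Y)

/-- Linear volume of the windows. -/
theorem exists_volume (hl : Labelling G nb) (hinv : Inv G) (hconn : G.Connected) (o₁ : O) {p : ℝ}
    (hs : FQ.Sub nb p) (hpush : PushBelow nb o₁ p) {F : Finset Γ} {Rel : Γ → Γ → Prop}
    (hR : ∃ R : Γ → Γ → Γ, ∀ z h, R z h ∈ F ∧ Rel (z * R z h * h) z)
    (hmaster : MasterRel nb o₁ (p / 2) F Rel) :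
    ∃ K : ℝ, 0 ≤ K ∧ ∀ m : ℕ, 1 ≤ m → ∀ q, p / 2 ≤ q → q < p → WinVolume nb q m K := by
  obtain ⟨hp, hp1, hwit⟩ := hs
  have hh0 : 0 < p / 2 := by linarith
  have hh1 : p / 2 ≤ 1 := by linarith
  obtain ⟨Cc, hCc, hmove⟩ := exists_move hl hconn o₁ hh0 hh1
  obtain ⟨C₁, hC₁, hMA⟩ := hmaster
  obtain ⟨S, hS, hpS⟩ := hpush (1 / (2 * (C₁ + 1))) (by positivity)
  obtain ⟨CS, hCS, hM⟩ := hMA S hS
  set L : ℝ := Real.log (1 / (p / 2)) with hL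
  have hL0 : 0 ≤ L := Real.log_nonneg (by rw [le_div_iff₀ hh0]; linarith)
  refine ⟨4 * CS * (1 + L) * Cc, by positivity, fun m hm q hq hqp o => ?_⟩
  have hq0 : 0 ≤ q := hh0.le.trans hq
  have hq1 : q ≤ 1 := hqp.le.trans hp1
  set Q := QT.wball nb ((1 : Γ), o) m
  have h := window_le hl hinv (hM q hq hq1 (hwit q hq0 hqp) _ (by positivity) (hpS q hq hqp))
    hq hq0 hq1 (hwit q hq0 hqp) hmove hCS hCc hR m o (W₀ := Q) subset_rfl (pow_pos hh0 m)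
    (pow_le_one₀ hh0.le hh1)
    fun w hw => (pow_le_pow_left₀ hh0.le hq m).trans (rowsPowLeT hl hq0 hq1 hw)
  rw [show Real.log (1 / (p / 2) ^ m) = m * L by
    rw [hL, one_div, one_div, Real.log_inv, Real.log_inv, Real.log_pow, mul_neg]] at h
  have hV : 0 ≤ ∑ w ∈ Q, winT nb q m o w :=
    sum_nonneg fun w _ => tauIn_nonneg _ hq0 hq1 _ _
  have hε : C₁ * (1 / (2 * (C₁ + 1))) ≤ 1 / 2 := by
    rw [mul_one_div, div_le_div_iff₀ (by positivity) two_pos]; linarith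
  have := mul_le_mul_of_nonneg_right hε hV
  have hm' : 0 ≤ CS * ((m : ℝ) - 1) * (Cc * 2) := mul_nonneg
    (mul_nonneg hCS (sub_nonneg.2 (Nat.one_le_cast.2 hm))) (mul_nonneg hCc zero_le_two)
  linarith

/-- Small mass of the elements of small size. -/
theorem exists_small (hl : Labelling G nb) (hinv : Inv G) (hconn : G.Connected) (o₁ : O) {p : ℝ}
    (hs : FQ.Sub nb p) (hpush : PushBelow nb o₁ p) {F : Finset Γ} {Rel : Γ → Γ → Prop}
    (hR : ∃ R : Γ → Γ → Γ, ∀ z h, R z h ∈ F ∧ Rel (z * R z h * h) z)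
    (hmaster : MasterRel nb o₁ (p / 2) F Rel) {sz : Γ → ℝ} {Cb : ℝ} {D : ℕ} (hCb : 0 ≤ Cb)
    (hcount : ∀ t : ℝ, 0 ≤ t → ∀ S : Finset Γ, (∀ g ∈ S, sz g ≤ t) →
      (S.card : ℝ) ≤ Cb * Real.exp ((D : ℝ) * t))
    (hvol : ∃ K : ℝ, 0 ≤ K ∧ ∀ m : ℕ, 1 ≤ m → ∀ q, p / 2 ≤ q → q < p → WinVolume nb q m K) :
    ∀ ε : ℝ, 0 < ε → ∃ η : ℝ, 0 < η ∧ ∃ n₀ : ℕ, ∀ m, n₀ ≤ m → ∀ q, p / 2 ≤ q → q < p →
      WinSmall nb q m sz η ε := by
  classical
  intro ε hε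
  obtain ⟨hp, hp1, hwit⟩ := hs
  have hh0 : 0 < p / 2 := by linarith
  obtain ⟨Cc, hCc, hmove⟩ := exists_move hl hconn o₁ hh0 (by linarith)
  obtain ⟨K, hK, hV⟩ := hvol
  obtain ⟨C₁, hC₁, hMA⟩ := hmaster
  obtain ⟨S, hS, hpS⟩ := hpush (ε / (4 * (C₁ * K + 1))) (by positivity)
  obtain ⟨CS, hCS, hM⟩ := hMA S hS
  set a : ℝ := CS * (Cc * 2) with ha
  have ha0 : 0 ≤ a := by positivity
  set b : ℝ := (Fintype.card O : ℝ) * Cb + a with hb
  refine ⟨ε / (4 * (a * D + 1)), by positivity, ⌈2 * b / ε⌉₊ + 1, fun m hm q hq hqp o => ?_⟩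
  set η := ε / (4 * (a * D + 1)) with hη
  have hη0 : 0 < η := by positivity
  have hq0 : 0 ≤ q := hh0.le.trans hq
  have hq1 : q ≤ 1 := hqp.le.trans hp1
  have hm1 : 1 ≤ m := le_of_add_le_right hm
  set r : ℝ := Real.exp (-(D * (η * m))) with hr
  set P := (QT.wball nb ((1 : Γ), o) m).filter fun z => sz z.1 ≤ η * m
  rw [← sum_filter_add_sum_filter_not P fun z => r ≤ T nb q ((1 : Γ), o) z]
  have hr1 : r ≤ 1 := Real.exp_le_one_iff.2 (neg_nonpos.2 (by positivity))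
  have hbig := window_le hl hinv (hM q hq hq1 (hwit q hq0 hqp) _ (by positivity) (hpS q hq hqp))
    hq hq0 hq1 (hwit q hq0 hqp) hmove hCS hCc hR m o
    (W₀ := P.filter fun z => r ≤ T nb q ((1 : Γ), o) z)
    ((filter_subset _ _).trans (filter_subset _ _)) (Real.exp_pos _) hr1
    fun w hw => (mem_filter.1 hw).2
  rw [one_div (Real.exp _), Real.log_inv, Real.log_exp, neg_neg] at hbig
  have hsm : ∑ z ∈ P.filter (fun z => ¬r ≤ T nb q ((1 : Γ), o) z), winT nb q m o z ≤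
      (Fintype.card O : ℝ) * Cb := by
    have hc : (P.card : ℝ) ≤ Fintype.card O * (Cb * Real.exp ((D : ℝ) * (η * m))) := by
      have h1 : P.card ≤ (P.image Prod.fst).card * Fintype.card O := by
        refine (card_le_card (t := P.image Prod.fst ×ˢ univ) fun z hz =>
          mem_product.2 ⟨mem_image_of_mem _ hz, mem_univ _⟩).trans_eq ?_
        rw [card_product, card_univ]
      refine (Nat.cast_le.2 h1).trans ?_
      rw [Nat.cast_mul, mul_comm]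
      refine mul_le_mul_of_nonneg_left (hcount _ (by positivity) _ fun g hg => ?_) (Nat.cast_nonneg _)
      obtain ⟨z, hz, rfl⟩ := mem_image.1 hg
      exact (mem_filter.1 hz).2
    refine (sum_le_card_nsmul _ _ r fun z hz => ?_).trans ?_
    · exact (le_T hq0 hq1 _ _ _).trans (le_of_not_ge (mem_filter.1 hz).2)
    rw [nsmul_eq_mul]
    refine (mul_le_mul_of_nonneg_right ((Nat.cast_le.2 (card_filter_le _ _)).trans hc)
      (Real.exp_pos _).le).trans (le_of_eq ?_)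
    rw [mul_assoc, mul_assoc, ← Real.exp_add, add_neg_cancel, Real.exp_zero, mul_one]
  have hε1 : C₁ * (ε / (4 * (C₁ * K + 1))) * K ≤ ε / 4 := by
    rw [mul_div_assoc', div_mul_eq_mul_div, div_le_div_iff₀ (by positivity) four_pos]
    linarith
  have hV1 := (mul_le_mul_of_nonneg_left (hV m hm1 q hq hqp o)
    (show 0 ≤ C₁ * (ε / (4 * (C₁ * K + 1))) by positivity)).trans
      (le_of_eq_of_le (mul_assoc _ _ _).symm (mul_le_mul_of_nonneg_right hε1 (Nat.cast_nonneg m)))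
  have hηa : a * (D * (η * m)) ≤ ε / 4 * m := by
    rw [← mul_assoc, ← mul_assoc]
    refine mul_le_mul_of_nonneg_right ?_ (Nat.cast_nonneg m)
    rw [hη, mul_div_assoc', div_le_div_iff₀ (by positivity) four_pos]
    linarith
  have hmb : b ≤ ε / 2 * m := by
    have h2 : 2 * b / ε ≤ m := (Nat.le_ceil _).trans (Nat.cast_le.2 ((Nat.le_succ _).trans hm))
    rw [div_le_iff₀ hε] at h2
    linarith
  linarith

end Vale.Agent.P165.EX.Multi
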