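import Vale.Agent.P165.EX.Multi.States
import Vale.Agent.P165.EX.Multi.Parts
import Vale.Agent.P165.EX.MasterAbs

/-!
# Several places: the elements with small energy

A large element with small energy has a large gap at some place. One range is good for the covectors
of all places, so the children of these elements fill a set of small anchored mass in one of
finitely many windows.
-/

namespace Vale.Agent.P165.EX.Multi

open Finset Matrix FF
open scoped Matrix.Norms.Elementwise MatrixGroups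

section Gap

variable {k : Type} [NontriviallyNormedField k] {n : ℕ} {Γ : Type} [Group Γ] (ρ : Γ →* SL(n, k))

/-- A deep covector has a large gap. -/
theorem dep_iff (hn : 0 < n) (φ : {φ : Fin n → k // φ ≠ 0}) (g : Γ) (t : ℝ) :
    ‖φ.1 ᵥ* (ρ g : Matrix (Fin n) (Fin n) k)‖ ≤
      Real.exp (-t) * (‖φ.1‖ * ‖(ρ g : Matrix (Fin n) (Fin n) k)‖) ↔ t ≤ gap ρ φ g := by
  have h1 := norm_pos_iff.2 (vecMul_rho_ne ρ φ g)
  have h2 := norm_pos_iff.2 φ.2
  have h3 := norm_pos ρ hn g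
  rw [← Real.log_le_log_iff h1 (mul_pos (Real.exp_pos _) (mul_pos h2 h3)),
    Real.log_mul (Real.exp_pos _).ne' (mul_pos h2 h3).ne', Real.log_exp,
    Real.log_mul h2.ne' h3.ne']
  simp only [gap, covLog, lsize]
  constructor <;> intro h <;> linarith

theorem gap_sub (hn : 0 < n) (φ : {φ : Fin n → k // φ ≠ 0}) (y z : Γ) :
    gap ρ φ y - gap ρ φ z = defect ρ (rowsOf φ.1) y - defect ρ (rowsOf φ.1) z := by
  rw [gap, gap, covLog_eq ρ hn, covLog_eq ρ hn]
  ring

end Gap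

variable {P : Type} [Fintype P] {k : P → Type} [∀ p, NontriviallyNormedField (k p)]
  [∀ p, ProperSpace (k p)] {d : P → ℕ} {Γ : Type} [Group Γ] (ρ : ∀ p, Γ →* SL(d p, k p))

omit [∀ p, ProperSpace (k p)] in
/-- A large element of small energy has a large gap at some place. -/
theorem exists_gap [Nonempty P] (hd : ∀ p, 0 < d p) {x : State k d} {g : Γ} {t : ℝ}
    (hbig : t < sz ρ g) (hE : energy ρ x g ≤ t / 2)
    (ht : ∑ p, Real.log ((d p).factorial : ℝ) ≤ t / 4) :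
    ∃ p, t / (4 * Fintype.card P) ≤ gap (ρ p) (x p) g := by
  by_contra hno
  push Not at hno
  have h1 : ∑ p, gap (ρ p) (x p) g ≤ t / 4 := by
    refine (sum_le_sum fun p _ => (hno p).le).trans (le_of_eq ?_)
    have : (Fintype.card P : ℝ) ≠ 0 := Nat.cast_ne_zero.2 Fintype.card_ne_zero
    rw [sum_const, card_univ, nsmul_eq_mul]
    field_simp
  have h2 : sz ρ g ≤ ∑ p, (lsize (ρ p) g + Real.log ((d p).factorial : ℝ)) :=
    sum_le_sum fun p _ => max_le (le_add_of_nonneg_right (Real.log_natCast_nonneg _))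
      (by linarith [lsize_ge (ρ p) (hd p) g])
  simp only [gap, sum_sub_distrib] at h1
  rw [sum_add_distrib] at h2
  change ∑ p, lsize (ρ p) g - energy ρ x g ≤ t / 4 at h1
  linarith

variable {O ι : Type} [DecidableEq Γ] [DecidableEq O] [Fintype O] [Fintype ι]
  {G : SimpleGraph (Γ × O)} {nb : Γ × O → ι → Γ × O}

/-- The elements of small energy have small mass in one of finitely many windows. -/
theorem exists_bad [Nonempty P] (hd : ∀ p, 0 < d p) (hfinite : ∃ C : ℝ, 0 ≤ C ∧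
      ∀ (m : ℕ) o, 1 ≤ m → ∀ z ∈ QT.wball nb ((1 : Γ), o) m, sz ρ z.1 ≤ C * m)
    (hl : Labelling G nb) (hinv : Inv G) (hconn : G.Connected) (o₁ : O) {p : ℝ}
    (hs : FQ.Sub nb p) (hpush : PushBelow nb o₁ p) {F : Finset Γ} {A : ℝ} (hA : 0 ≤ A)
    (hchild : ∀ (Q : ∀ p, Fin 2 → Matrix (Fin (d p)) (Fin (d p)) (k p)) (w h : Γ), ∃ σ ∈ F,
        Cand ρ F A (w * σ * h) w ∧ ∀ p,
          |lsize (ρ p) (w * σ * h) - lsize (ρ p) w - lsize (ρ p) h| ≤ A ∧
          ∀ i, Q p i ≠ 0 →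
            |defect (ρ p) (Q p i) (w * σ * h) - defect (ρ p) (Q p i) w| ≤ A)
    (hmaster : MasterRel nb o₁ (p / 2) F (Cand ρ F A))
    (hvol : ∃ K : ℝ, 0 ≤ K ∧ ∀ m : ℕ, 1 ≤ m → ∀ q, p / 2 ≤ q → q < p → WinVolume nb q m K) :
    ∀ η : ℝ, 0 < η → ∀ ε : ℝ, 0 < ε → ∀ n₀ : ℕ, ∃ Nmax : ℕ, ∀ q, p / 2 ≤ q → q < p →
      ∃ m, n₀ ≤ m ∧ m ≤ Nmax ∧ WinBad nb q m (sz ρ) (energy ρ) η ε := by
  classical
  intro η hη ε hε n₀
  obtain ⟨hp, hp1, hwit⟩ := hs
  have hh0 : 0 < p / 2 := by linarith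
  have hh1 : p / 2 ≤ 1 := by linarith
  obtain ⟨Cw, hCw, hwin⟩ := hfinite
  obtain ⟨Cc, hCc, hmove⟩ := exists_move hl hconn o₁ hh0 hh1
  obtain ⟨K, hK, hV⟩ := hvol
  obtain ⟨C₁, hC₁, hMA⟩ := hmaster
  obtain ⟨S, hS, hpS⟩ := hpush (ε / (4 * (C₁ * K + 1))) (by positivity)
  obtain ⟨CS, hCS, hM⟩ := hMA S hS
  set L : ℝ := Real.log (1 / (p / 2)) with hL
  have hL0 : 0 ≤ L := Real.log_nonneg (by rw [le_div_iff₀ hh0]; linarith)
  set NP : ℝ := (Fintype.card P : ℝ)
  have hNP : (1 : ℝ) ≤ NP := Nat.one_le_cast.2 Fintype.card_pos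
  set δ : ℝ := min 1 (ε / (4 * (CS * (1 + L) * Cc * NP + 1))) with hδ
  have hδ0 : 0 < δ := lt_min one_pos (by positivity)
  set N : ℕ := ∑ p, d p
  have hN : ∀ p, d p ≤ N := fun p => single_le_sum (fun _ _ => Nat.zero_le _) (mem_univ p)
  obtain ⟨J, hJ⟩ := exists_nat_gt (NP / δ ^ N)
  have hJ' : NP < (J : ℝ) * δ ^ N := by rwa [div_lt_iff₀ (pow_pos hδ0 N)] at hJ
  -- the ranges
  set lf : ℝ := ∑ p, Real.log ((d p).factorial : ℝ) with hlf
  have hlf0 : 0 ≤ lf := sum_nonneg fun p _ => Real.log_natCast_nonneg _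
  have hlfp : ∀ p, Real.log ((d p).factorial : ℝ) ≤ lf := fun p =>
    single_le_sum (f := fun p => Real.log ((d p).factorial : ℝ))
      (fun p _ => Real.log_natCast_nonneg _) (mem_univ p)
  set C₀ : ℝ := Cw + 1
  have hC₀ : 0 < C₀ := by positivity
  set η' := min η C₀
  have hη' : 0 < η' := lt_min hη hC₀
  set ec : ℝ := ∑ p, (Real.log (d p) + Real.log ((d p).factorial : ℝ)) with hec
  have hec0 : 0 ≤ ec := sum_nonneg fun p _ =>
    add_nonneg (Real.log_natCast_nonneg _) (Real.log_natCast_nonneg _)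
  set hiF : ℕ → ℝ := fun m => ((N : ℝ) + 1) * (C₀ * m + lf) + ec + A + 1 with hhiF
  set loF : ℕ → ℝ := fun m => η' * m / (4 * NP) - A with hloF
  set cN : ℝ := Real.log (3 * ((N : ℝ) + 1)) with hcN
  have hcN0 : 0 ≤ cN := Real.log_nonneg (by linarith [(N.cast_nonneg : (0 : ℝ) ≤ N)])
  set N₁ : ℕ := max n₀ (⌈4 * lf / η⌉₊ + 1) with hN₁
  obtain ⟨w, hw₁, hw₂⟩ : ∃ w : ℕ → ℕ, (∀ i, N₁ ≤ w i) ∧
      ∀ i, N * (hiF (w i) + cN) ≤ loF (w (i + 1)) := by
    refine ⟨fun i => i.rec N₁ fun _ m => max N₁ ⌈4 * NP * (N * (hiF m + cN) + A) / η'⌉₊,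
      fun i => ?_, fun i => ?_⟩
    · cases i with
      | zero => exact le_rfl
      | succ i => exact le_max_left _ _
    · simp only [hloF]
      set m : ℕ := Nat.rec N₁ (fun _ m => max N₁ ⌈4 * NP * (N * (hiF m + cN) + A) / η'⌉₊) i
      have h : 4 * NP * (N * (hiF m + cN) + A) / η' ≤
          ((max N₁ ⌈4 * NP * (N * (hiF m + cN) + A) / η'⌉₊ : ℕ) : ℝ) :=
        (Nat.le_ceil _).trans (Nat.cast_le.2 (le_max_right _ _))
      rw [div_le_iff₀ hη'] at h
      rw [le_sub_iff_add_le, le_div_iff₀ (by positivity)]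
      linarith
  refine ⟨(range J).sup w, fun q hq hqp => ?_⟩
  have hq0 : 0 ≤ q := hh0.le.trans hq
  have hq1 : q ≤ 1 := hqp.le.trans hp1
  obtain ⟨U, hU1, hU⟩ := rowsExistsHalf hl hinv o₁ hq0 hq1 (hwit q hq0 hqp)
  have hU0 : (0 : ℝ) < 2 * ∑ g ∈ U, anc nb o₁ q g := by linarith
  set all : Finset Γ := (range J).biUnion fun i => (univ : Finset O).biUnion fun o =>
    Finset.image (fun u : (((Γ × O) × Γ) × Γ) × Γ =>
      u.1.1.1.1 * u.1.1.2 * (u.1.2 * u.2)) (((QT.wball nb ((1 : Γ), o) (w i) ×ˢ F) ×ˢ S) ×ˢ U)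
  have hne : ∀ p, Nonempty (Fin (d p)) := fun p => ⟨⟨0, hd p⟩⟩
  obtain ⟨i, hiJ, hgood⟩ := exists_covector_scale (P := P) (k := k) (fun p => Fin (d p))
    (fun p y => (ρ p y : Matrix (Fin (d p)) (Fin (d p)) (k p))) all
    (fun y => anc nb o₁ q y / (2 * ∑ g ∈ U, anc nb o₁ q g))
    (fun y _ => div_nonneg (anc_nonneg o₁ hq0 hq1 y) hU0.le)
    (by rw [← sum_div, div_le_one hU0]; exact hU all) (fun i => loF (w i)) (fun i => hiF (w i))
    (fun i => by
      simp only [hloF, hhiF]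
      have h1 : η' * w i / (4 * NP) ≤ C₀ * w i := (div_le_self (by positivity) (by linarith)).trans
        (mul_le_mul_of_nonneg_right (min_le_right _ _) (Nat.cast_nonneg _))
      have h2 : C₀ * w i + lf ≤ ((N : ℝ) + 1) * (C₀ * w i + lf) :=
        le_mul_of_one_le_left (by positivity) (le_add_of_nonneg_left (Nat.cast_nonneg _))
      linarith)
    (fun i => by simp only [hhiF]; positivity)
    (fun i p => by
      refine le_trans ?_ (hw₂ i)
      rw [Fintype.card_fin]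
      refine mul_le_mul (Nat.cast_le.2 (hN p)) (add_le_add le_rfl (Real.log_le_log (by positivity)
        (mul_le_mul_of_nonneg_left (add_le_add (Nat.cast_le.2 (hN p)) le_rfl) (by norm_num)))) ?_
        (Nat.cast_nonneg _)
      refine add_nonneg (by simp only [hhiF]; positivity) (Real.log_nonneg ?_)
      linarith [((d p).cast_nonneg : (0 : ℝ) ≤ d p)])
    hδ0.le (min_le_left _ _) (fun p => by simpa using hN p) hJ'
  have hwi := hw₁ i
  have hm1 : 1 ≤ w i := le_trans (le_max_of_le_right (Nat.le_add_left 1 _)) hwi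
  refine ⟨w i, (le_max_left _ _).trans hwi, le_sup (f := w) (mem_range.2 hiJ), fun x o => ?_⟩
  choose ψ hψ hle using fun p => hgood p (x p).1 (x p).2
  let Qt : ∀ p, Fin 2 → Matrix (Fin (d p)) (Fin (d p)) (k p) :=
    fun p => ![rowsOf (x p).1, rowsOf (ψ p)]
  choose R hR1 hR2 hR3 using hchild Qt
  set band : P → Finset Γ := fun p => all.filter fun y =>
    loF (w i) ≤ gap (ρ p) (x p) y ∧ ¬hiF (w i) ≤ gap (ρ p) ⟨ψ p, hψ p⟩ y with hband
  set Y := (univ : Finset P).biUnion band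
  have hY : ∑ y ∈ Y, anc nb o₁ q y ≤ 2 * δ * NP * ∑ g ∈ U, anc nb o₁ q g := by
    refine (sum_biUnion_le_sum univ band _ fun y => anc_nonneg o₁ hq0 hq1 y).trans ?_
    refine (sum_le_card_nsmul _ _ (2 * δ * ∑ g ∈ U, anc nb o₁ q g) fun p _ => ?_).trans
      (le_of_eq ?_)
    swap
    · rw [card_univ, nsmul_eq_mul]; ring
    have h := hle p
    rw [← sum_div, div_le_iff₀ hU0] at h
    refine le_trans (le_of_eq (sum_congr (filter_congr fun y _ => ?_) fun _ _ => rfl))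
      (h.trans (le_of_eq (by ring)))
    rw [← dep_iff (ρ p) (hd p) (x p) y, ← dep_iff (ρ p) (hd p) ⟨ψ p, hψ p⟩ y]
  have hlogn : lf ≤ η * w i / 4 := by
    have h : 4 * lf / η ≤ w i :=
      (Nat.le_ceil _).trans (Nat.cast_le.2 ((Nat.le_succ _).trans (le_of_max_le_right hwi)))
    rw [div_le_iff₀ hη] at h
    linarith
  have h := mass_le (c := 2 * δ * NP) hCS (pow_pos hh0 (w i)) (pow_le_one₀ hh0.le hh1) hCc hU1
    (hM q hq hq1 (hwit q hq0 hqp) _ (by positivity) (hpS q hq hqp) U hU (w i) o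
      ((QT.wball nb ((1 : Γ), o) (w i)).filter fun z =>
        η * w i < sz ρ z.1 ∧ energy ρ x z.1 ≤ η * w i / 2) (filter_subset _ _)
      ((p / 2) ^ w i) (pow_pos hh0 _) (pow_le_one₀ hh0.le hh1)
      (fun z hz => (pow_le_pow_left₀ hh0.le hq _).trans
        (rowsPowLeT hl hq0 hq1 (mem_filter.1 hz).1))
      R (fun z h => ⟨hR1 z h, hR2 z h⟩) Y fun z hz g hg h hh => by
        obtain ⟨hzb, hbig, hEz⟩ := mem_filter.1 hz
        obtain ⟨π, hπ⟩ := exists_gap ρ hd hbig hEz hlogn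
        have hd1 := (hR3 z.1 (g * h) π).2
        have d1 := abs_le.1 (hd1 0 (by simpa [Qt] using rowsOf_ne_zero (hd π) (x π).2))
        have d2 := abs_le.1 (hd1 1 (by simpa [Qt] using rowsOf_ne_zero (hd π) (hψ π)))
        simp only [Qt, Matrix.cons_val_zero, Matrix.cons_val_one] at d1 d2
        have e1 := gap_sub (ρ π) (hd π) (x π) (z.1 * R z.1 (g * h) * (g * h)) z.1
        have e2 := gap_sub (ρ π) (hd π) ⟨ψ π, hψ π⟩ (z.1 * R z.1 (g * h) * (g * h)) z.1
        simp only at e1 e2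
        refine mem_biUnion.2 ⟨π, mem_univ _, mem_filter.2 ⟨mem_biUnion.2 ⟨i, mem_range.2 hiJ,
          mem_biUnion.2 ⟨o, mem_univ o, mem_image.2 ⟨(((z, R z.1 (g * h)), g), h),
            by simp [hzb, hR1 z.1 (g * h), hg, hh], rfl⟩⟩⟩, ?_, not_le.2 ?_⟩⟩
        · have hm : η' * w i / (4 * NP) ≤ η * w i / (4 * NP) := div_le_div_of_nonneg_right
            (mul_le_mul_of_nonneg_right (min_le_left _ _) (Nat.cast_nonneg _)) (by positivity)
          simp only [hloF]
          linarith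
        · have hb := gap_le (ρ π) (hd π) ⟨ψ π, hψ π⟩ z.1
          have hsz := hwin _ o hm1 z hzb
          have hls : |lsize (ρ π) z.1| ≤ C₀ * w i + lf := by
            refine (abs_lsize_le_sz ρ hd z.1 π).trans (add_le_add ?_ (hlfp π))
            exact hsz.trans (mul_le_mul_of_nonneg_right (le_add_of_nonneg_right zero_le_one)
              (Nat.cast_nonneg _))
          have h1 := mul_le_mul (add_le_add (Nat.cast_le (α := ℝ) |>.2 (hN π)) (le_refl (1 : ℝ)))
            hls (abs_nonneg _) (by positivity)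
          have h2 : Real.log (d π : ℝ) + Real.log ((d π).factorial : ℝ) ≤ ec :=
            single_le_sum (f := fun p => Real.log (d p : ℝ) + Real.log ((d p).factorial : ℝ))
              (fun p _ => add_nonneg (Real.log_natCast_nonneg _) (Real.log_natCast_nonneg _))
              (mem_univ π)
          simp only [hhiF]
          linarith)
    (hmove q hq hq1 o Y) hY
  rw [show Real.log (1 / (p / 2) ^ w i) = w i * L by
    rw [hL, one_div, one_div, Real.log_inv, Real.log_inv, Real.log_pow, mul_neg]] at h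
  have hε1 : C₁ * (ε / (4 * (C₁ * K + 1))) * K ≤ ε / 4 := by
    rw [mul_div_assoc', div_mul_eq_mul_div, div_le_div_iff₀ (by positivity) four_pos]
    linarith
  have hV' := (mul_le_mul_of_nonneg_left (hV (w i) hm1 q hq hqp o)
    (show 0 ≤ C₁ * (ε / (4 * (C₁ * K + 1))) by positivity)).trans
      (le_of_eq_of_le (mul_assoc _ _ _).symm
        (mul_le_mul_of_nonneg_right hε1 (Nat.cast_nonneg (w i))))
  have hd' : CS * (1 + L) * Cc * NP * δ ≤ ε / 4 := by
    refine (mul_le_mul_of_nonneg_left (min_le_right _ _) (by positivity)).trans ?_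
    rw [mul_div_assoc', div_le_div_iff₀ (by positivity) four_pos]
    linarith
  have hm' : (1 : ℝ) ≤ w i := Nat.one_le_cast.2 hm1
  have h1 := mul_le_mul_of_nonneg_right hd' (Nat.cast_nonneg (α := ℝ) (w i))
  have h2 : 0 ≤ CS * ((w i : ℝ) - 1) * (Cc * δ * NP) :=
    mul_nonneg (mul_nonneg hCS (sub_nonneg.2 hm')) (by positivity)
  have h3 : 0 ≤ ε * (w i : ℝ) := by positivity
  linarith

end Vale.Agent.P165.EX.Multi
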