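import Vale.Agent.P165.EX.Child

/-!
# Several places: jointly box-finite representations

A group with finitely many representations, each Zariski dense in its special linear group over a
proper field, and with finitely many elements in every product of boxes. Frames exist jointly, from
density at each place alone: finitely many frames of one place make its good set syndetic, so it
meets the good set of the others. Packing, the flat mass and children follow place by place.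
-/

namespace Vale.Agent.P165.EX.Multi

open Finset Matrix FF
open scoped Matrix.Norms.Elementwise MatrixGroups

variable {P : Type} {k : P → Type} [∀ p, NontriviallyNormedField (k p)] {d : P → ℕ}
  {Γ : Type} [Group Γ] (ρ : ∀ p, Γ →* SL(d p, k p))

/-- Zariski dense at every place. -/
def Dense : Prop :=
  ∀ p, SL.ZariskiDense (Set.range fun g => (ρ p g : Matrix (Fin (d p)) (Fin (d p)) (k p)))

/-- Finitely many elements in every product of boxes. -/
def BoxFinite : Prop :=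
  ∀ R : ℝ, {g : Γ | ∀ p, ‖(ρ p g : Matrix (Fin (d p)) (Fin (d p)) (k p))‖ ≤ R}.Finite

/-- Elements at which the sizes of all places add up along a frame. -/
def Cand (F : Finset Γ) (A : ℝ) (y z : Γ) : Prop :=
  ∃ h : Γ, (∃ σ ∈ F, z * σ * h = y) ∧
    ∀ p, ∀ j : Fin (d p + 1), |size (ρ p) j y - size (ρ p) j z - size (ρ p) j h| ≤ A

theorem Cand.place {F : Finset Γ} {A : ℝ} {y z : Γ} (h : Cand ρ F A y z) (p : P) :
    EX.Cand (ρ p) F A y z :=
  let ⟨g, hg, hm⟩ := h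
  ⟨g, hg, hm p⟩

/-- Finitely many conditions at finitely many places are met by one element. -/
theorem joint_generic [∀ p, ProperSpace (k p)] (hdense : Dense ρ) (T : Finset P) :
    ∀ (κ : P → Type) [∀ p, Fintype (κ p)] (deg : ∀ p, κ p → ℕ),
      (∀ p i, deg p i ≤ d p) →
      ∀ r u : ∀ p i, Sub (d p) (deg p i) → k p, (∀ p ∈ T, ∀ i, r p i ≠ 0) →
        (∀ p ∈ T, ∀ i, u p i ≠ 0) →
        ∃ g, ∀ p ∈ T, ∀ i, r p i ⬝ᵥ (cm (ρ p) (deg p i) g *ᵥ u p i) ≠ 0 := by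
  classical
  induction T using Finset.induction_on with
  | empty => intro κ _ deg _ r u _ _; exact ⟨1, by simp⟩
  | insert a T ha ih =>
    intro κ _ deg hdeg r u hr hu
    have hne : ∀ i, Nonempty (Sub (d a) (deg a i)) := fun i => sub_nonempty (hdeg a i)
    obtain ⟨F, c, hc, hF⟩ := uniform_frames (k := k a) (Γ := Γ)
      (ν := fun i : κ a => Sub (d a) (deg a i)) (fun i g => cm (ρ a) (deg a i) g)
      (fun r u hr hu => by
        obtain ⟨_, ⟨g, rfl⟩, hg⟩ := dense_generic (hdense a) (deg a) r u hr hu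
        exact ⟨g, hg⟩)
    have hcm : ∀ p j g (v : Sub (d p) j → k p), v ≠ 0 → cm (ρ p) j g *ᵥ v ≠ 0 := by
      intro p j g v hv h
      apply hv
      have := congrArg (fun x => cm (ρ p) j g⁻¹ *ᵥ x) h
      simpa [mulVec_mulVec, ← cm_mul, cm_one] using this
    have hcv : ∀ p j g (v : Sub (d p) j → k p), v ≠ 0 → v ᵥ* cm (ρ p) j g ≠ 0 := by
      intro p j g v hv h
      apply hv
      have := congrArg (fun x => x ᵥ* cm (ρ p) j g⁻¹) h
      simpa [vecMul_vecMul, ← cm_mul, cm_one] using this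
    obtain ⟨y, hy⟩ := ih (fun p => κ p × {σ // σ ∈ F}) (fun p i => deg p i.1)
      (fun p i => hdeg p i.1) (fun p i => r p i.1 ᵥ* cm (ρ p) (deg p i.1) i.2.1)
      (fun p i => u p i.1)
      (fun p hp i => hcv _ _ _ _ (hr p (mem_insert_of_mem hp) i.1))
      (fun p hp i => hu p (mem_insert_of_mem hp) i.1)
    obtain ⟨σ, hσ, hs⟩ := hF (r a) (fun i => cm (ρ a) (deg a i) y *ᵥ u a i)
    refine ⟨σ * y, fun p hp i => ?_⟩
    rw [cm_mul, ← mulVec_mulVec]
    rcases mem_insert.1 hp with rfl | hp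
    · exact norm_pos_iff.1 ((mul_pos hc (mul_pos (norm_pos_iff.2 (hr p (mem_insert_self p T) i))
        (norm_pos_iff.2 (hcm _ _ _ _ (hu p (mem_insert_self p T) i))))).trans_le (hs i))
    · rw [dotProduct_mulVec]
      exact hy p hp (i, ⟨σ, hσ⟩)

omit [Group Γ] in
/-- Uniform frames for conditions over varying fields. -/
theorem uniform_frames' {κ : Type} [Fintype κ] {K : κ → Type} [∀ i, NontriviallyNormedField (K i)]
    [∀ i, ProperSpace (K i)] {ν : κ → Type} [∀ i, Fintype (ν i)] [∀ i, Nonempty (ν i)]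
    (φ : ∀ i, Γ → Matrix (ν i) (ν i) (K i))
    (hS : ∀ r u : ∀ i, ν i → K i, (∀ i, r i ≠ 0) → (∀ i, u i ≠ 0) →
      ∃ g, ∀ i, r i ⬝ᵥ (φ i g *ᵥ u i) ≠ 0) :
    ∃ (F : Finset Γ) (c : ℝ), 0 < c ∧
      ∀ r u : ∀ i, ν i → K i, ∃ g ∈ F, ∀ i, c * (‖r i‖ * ‖u i‖) ≤ ‖r i ⬝ᵥ (φ i g *ᵥ u i)‖ := by
  classical
  let S : Set ((∀ i, ν i → K i) × (∀ i, ν i → K i)) :=
    (Set.univ.pi fun _ => Metric.sphere 0 1) ×ˢ (Set.univ.pi fun _ => Metric.sphere 0 1)
  have hK : IsCompact S :=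
    (isCompact_univ_pi fun _ => isCompact_sphere 0 1).prod
      (isCompact_univ_pi fun _ => isCompact_sphere 0 1)
  let f : Γ → (∀ i, ν i → K i) × (∀ i, ν i → K i) → κ → ℝ :=
    fun g x i => ‖x.1 i ⬝ᵥ (φ i g *ᵥ x.2 i)‖
  have hfc : ∀ g i, Continuous fun x => f g x i := fun g i => by
    simp only [f, dotProduct, mulVec]
    fun_prop
  let U : Γ × ℕ → Set ((∀ i, ν i → K i) × (∀ i, ν i → K i)) :=
    fun gn => {x | ∀ i, 1 / ((gn.2 : ℝ) + 1) < f gn.1 x i}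
  have hUo : ∀ gn, IsOpen (U gn) := fun gn => by
    simp only [U, Set.ofPred_forall]
    exact isOpen_iInter_of_finite fun i => isOpen_lt continuous_const (hfc _ i)
  have hcov : S ⊆ ⋃ gn, U gn := by
    rintro ⟨r, u⟩ ⟨hr, hu⟩
    simp only [Set.mem_univ_pi, mem_sphere_zero_iff_norm] at hr hu
    obtain ⟨g, hne⟩ := hS r u (fun i h => by simpa [h] using hr i)
      (fun i h => by simpa [h] using hu i)
    choose m hm using fun i => exists_nat_one_div_lt (norm_pos_iff.2 (hne i))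
    refine Set.mem_iUnion.2 ⟨(g, univ.sup m), fun i => lt_of_le_of_lt ?_ (hm i)⟩
    gcongr
    exact Finset.le_sup (f := m) (mem_univ i)
  obtain ⟨T, hT⟩ := hK.elim_finite_subcover U hUo hcov
  refine ⟨T.image Prod.fst, 1 / (((T.image Prod.snd).sup id : ℕ) + 1), by positivity,
    fun r u => ?_⟩
  have hun' : ∀ i, ∀ v : ν i → K i, ∃ (a : K i) (u : ν i → K i), ‖u‖ = 1 ∧ v = a • u := by
    intro i v
    by_cases h : v = 0
    · exact ⟨0, fun _ => 1, by simp, by simp [h]⟩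
    obtain ⟨l, hl⟩ := Finite.exists_max fun l => ‖v l‖
    have hl' : ‖v‖ = ‖v l‖ :=
      le_antisymm ((pi_norm_le_iff_of_nonneg (norm_nonneg _)).2 hl) (norm_le_pi_norm v l)
    have hvl : v l ≠ 0 := fun h0 => h (norm_eq_zero.1 (by rw [hl', h0, norm_zero]))
    exact ⟨v l, (v l)⁻¹ • v,
      by rw [norm_smul, norm_inv, hl', inv_mul_cancel₀ (norm_ne_zero_iff.2 hvl)],
      by rw [smul_smul, mul_inv_cancel₀ hvl, one_smul]⟩
  choose sc un hun using hun'
  have hx : ((fun i => un i (r i)), fun i => un i (u i)) ∈ S := by simp [S, (hun _ _).1]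
  obtain ⟨gn, hgn, hbd⟩ := Set.mem_iUnion₂.1 (hT hx)
  refine ⟨gn.1, mem_image_of_mem _ hgn, fun i => ?_⟩
  have hle : 1 / ((((T.image Prod.snd).sup id : ℕ) : ℝ) + 1) ≤ 1 / ((gn.2 : ℝ) + 1) := by
    gcongr
    exact Finset.le_sup (f := id) (mem_image_of_mem Prod.snd hgn)
  calc 1 / ((((T.image Prod.snd).sup id : ℕ) : ℝ) + 1) * (‖r i‖ * ‖u i‖)
      ≤ f gn.1 ((fun i => un i (r i)), fun i => un i (u i)) i * (‖r i‖ * ‖u i‖) :=
        mul_le_mul_of_nonneg_right (hle.trans (hbd i).le) (by positivity)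
    _ = ‖r i ⬝ᵥ (φ i gn.1 *ᵥ u i)‖ := by
        conv_lhs => rw [(hun i (r i)).2, (hun i (u i)).2]
        conv_rhs => rw [(hun i (r i)).2, (hun i (u i)).2]
        simp only [f, mulVec_smul, smul_dotProduct, dotProduct_smul, smul_eq_mul, norm_mul,
          norm_smul, (hun i _).1]
        ring

/-- Logarithms at a frame with a lower bound. -/
theorem slot_le {K : Type} [NontriviallyNormedField K] {n j : ℕ} {hom : Γ →* SL(n, K)}
    (hj : j ≤ n) {Q : Matrix (Sub n j) (Sub n j) K} (hQ : Q ≠ 0) {c M : ℝ} (hc : 0 < c)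
    (hM : 1 ≤ M) {σ : Γ}
    (hσ : (Fintype.card (Sub n j) : ℝ) * ((Fintype.card (Sub n j) : ℝ) * ‖cm hom j σ‖) ≤ M)
    {z h : Γ} (hlow : c * (‖Q * cm hom j z‖ * ‖cm hom j h‖) ≤ ‖Q * cm hom j (z * σ * h)‖) :
    |lev hom Q (z * σ * h) - lev hom Q z - size hom j h| ≤ |Real.log c| + Real.log M := by
  have hlM : 0 ≤ Real.log M := Real.log_nonneg hM
  have hU : 0 < ‖Q * cm hom j z‖ := norm_pos_iff.2 (test_ne hom hQ z)
  have hW : 0 < ‖cm hom j h‖ := norm_cm_pos hom hj h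
  have hup : ‖Q * cm hom j (z * σ * h)‖ ≤ M * (‖Q * cm hom j z‖ * ‖cm hom j h‖) := by
    rw [cm_mul, cm_mul, ← mul_assoc, ← mul_assoc]
    set D : ℝ := (Fintype.card (Sub n j) : ℝ) with hD
    have h3 := mul_le_mul_of_nonneg_right hσ (mul_nonneg hU.le hW.le)
    have h4 := mul_le_mul_of_nonneg_left
      (mul_le_mul_of_nonneg_right (norm_mul_le_card (Q * cm hom j z) (cm hom j σ)) hW.le)
      (show 0 ≤ D from Nat.cast_nonneg _)
    have h5 := norm_mul_le_card (Q * cm hom j z * cm hom j σ) (cm hom j h)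
    rw [← hD] at h4 h5
    linarith
  have hy : 0 < ‖Q * cm hom j (z * σ * h)‖ := (mul_pos hc (mul_pos hU hW)).trans_le hlow
  have l1 := Real.log_le_log (mul_pos hc (mul_pos hU hW)) hlow
  have l2 := Real.log_le_log hy hup
  rw [Real.log_mul hc.ne' (mul_pos hU hW).ne', Real.log_mul hU.ne' hW.ne'] at l1
  rw [Real.log_mul (by linarith) (mul_pos hU hW).ne', Real.log_mul hU.ne' hW.ne'] at l2
  simp only [lev, size]
  rw [abs_le]
  constructor <;> linarith [neg_abs_le (Real.log c), abs_nonneg (Real.log c)]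

variable [Fintype P] [∀ p, ProperSpace (k p)]

/-- Along a joint frame the sizes and test values of all places add, up to a constant. -/
theorem exists_est (hdense : Dense ρ) (q : ℕ) :
    ∃ (F : Finset Γ) (A : ℝ), 0 ≤ A ∧
      ∀ (Q : ∀ p, ∀ j : Fin (d p + 1), Fin q → Matrix (Sub (d p) j) (Sub (d p) j) (k p))
        (z h : Γ), ∃ σ ∈ F, ∀ p, ∀ j : Fin (d p + 1),
        |size (ρ p) j (z * σ * h) - size (ρ p) j z - size (ρ p) j h| ≤ A ∧ ∀ i, Q p j i ≠ 0 →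
          |lev (ρ p) (Q p j i) (z * σ * h) - lev (ρ p) (Q p j i) z - size (ρ p) j h| ≤ A := by
  classical
  let κ : P → Type := fun p => Fin (d p + 1) × Fin (q + 1)
  have hne : ∀ i : Σ p, κ p, Nonempty (Sub (d i.1) i.2.1) := fun i =>
    sub_nonempty (Nat.le_of_lt_succ i.2.1.2)
  obtain ⟨F, c, hc, hF⟩ := uniform_frames' (K := fun i : Σ p, κ p => k i.1) (Γ := Γ)
    (ν := fun i : Σ p, κ p => Sub (d i.1) i.2.1) (fun i g => cm (ρ i.1) i.2.1 g)
    (fun r u hr hu => by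
      obtain ⟨g, hg⟩ := joint_generic ρ hdense univ κ (fun p i => (i.1 : ℕ))
        (fun p i => Nat.le_of_lt_succ i.1.2) (fun p i => r ⟨p, i⟩) (fun p i => u ⟨p, i⟩)
        (fun p _ i => hr ⟨p, i⟩) (fun p _ i => hu ⟨p, i⟩)
      exact ⟨g, fun i => hg i.1 (mem_univ _) i.2⟩)
  set g₀ : Γ → ∀ p, Fin (d p + 1) → ℝ := fun σ p j =>
    (Fintype.card (Sub (d p) j) : ℝ) * ((Fintype.card (Sub (d p) j) : ℝ) * ‖cm (ρ p) j σ‖)
  have hg0 : ∀ σ p j, 0 ≤ g₀ σ p j := fun σ p j => by positivity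
  set M : ℝ := 1 + ∑ σ ∈ F, ∑ p, ∑ j, g₀ σ p j
  have hM : ∀ σ ∈ F, ∀ p j, g₀ σ p j ≤ M := fun σ hσ p j =>
    ((single_le_sum (fun j _ => hg0 σ p j) (mem_univ j)).trans
      ((single_le_sum (f := fun p => ∑ j, g₀ σ p j) (fun p _ => sum_nonneg fun j _ => hg0 σ p j)
        (mem_univ p)).trans
        (single_le_sum (f := fun σ => ∑ p, ∑ j, g₀ σ p j)
          (fun σ _ => sum_nonneg fun p _ => sum_nonneg fun j _ => hg0 σ p j) hσ))).trans
      (le_add_of_nonneg_left zero_le_one)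
  have hM1 : 1 ≤ M := le_add_of_nonneg_right
    (sum_nonneg fun σ _ => sum_nonneg fun p _ => sum_nonneg fun j _ => hg0 σ p j)
  refine ⟨F, |Real.log c| + Real.log M, add_nonneg (abs_nonneg _) (Real.log_nonneg hM1),
    fun Q z h => ?_⟩
  let Q' : ∀ i : Σ p, κ p, Matrix (Sub (d i.1) i.2.1) (Sub (d i.1) i.2.1) (k i.1) := fun i =>
    (Fin.cons 1 (Q i.1 i.2.1) :
      Fin (q + 1) → Matrix (Sub (d i.1) i.2.1) (Sub (d i.1) i.2.1) (k i.1)) i.2.2
  choose e₁ hab using fun i : Σ p, κ p => Finite.exists_max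
    fun e : Sub (d i.1) i.2.1 × Sub (d i.1) i.2.1 => ‖(Q' i * cm (ρ i.1) i.2.1 z) e.1 e.2‖
  choose e₂ hab' using fun i : Σ p, κ p => Finite.exists_max
    fun e : Sub (d i.1) i.2.1 × Sub (d i.1) i.2.1 => ‖cm (ρ i.1) i.2.1 h e.1 e.2‖
  obtain ⟨σ, hσ, hs⟩ := hF (fun i => (Q' i * cm (ρ i.1) i.2.1 z) (e₁ i).1)
    (fun i => (cm (ρ i.1) i.2.1 h).col (e₂ i).2)
  have key : ∀ i : Σ p, κ p, c * (‖Q' i * cm (ρ i.1) i.2.1 z‖ * ‖cm (ρ i.1) i.2.1 h‖) ≤
      ‖Q' i * cm (ρ i.1) i.2.1 (z * σ * h)‖ := by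
    intro i
    have h1 : ‖Q' i * cm (ρ i.1) i.2.1 z‖ ≤ ‖(Q' i * cm (ρ i.1) i.2.1 z) (e₁ i).1‖ :=
      (Matrix.norm_le_iff (norm_nonneg _)).2 fun x y =>
        (hab i (x, y)).trans (norm_le_pi_norm _ (e₁ i).2)
    have h2 : ‖cm (ρ i.1) i.2.1 h‖ ≤ ‖(cm (ρ i.1) i.2.1 h).col (e₂ i).2‖ :=
      (Matrix.norm_le_iff (norm_nonneg _)).2 fun x y =>
        (hab' i (x, y)).trans (norm_le_pi_norm ((cm (ρ i.1) i.2.1 h).col (e₂ i).2) (e₂ i).1)
    refine (mul_le_mul_of_nonneg_left (mul_le_mul h1 h2 (norm_nonneg _) (norm_nonneg _))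
      hc.le).trans ((hs i).trans (le_of_eq_of_le (congrArg norm ?_)
        (norm_entry_le_entrywise_sup_norm (Q' i * cm (ρ i.1) i.2.1 (z * σ * h))
          (i := (e₁ i).1) (j := (e₂ i).2))))
    rw [cm_mul, cm_mul, ← mul_assoc, ← mul_assoc, dotProduct_mulVec,
      Matrix.mul_apply' (M := _ * _),
      mul_apply_eq_vecMul (Q' i * cm (ρ i.1) i.2.1 z) (cm (ρ i.1) i.2.1 σ)]
    rfl
  refine ⟨σ, hσ, fun p j => ⟨?_, fun i hi => ?_⟩⟩
  · have : Nonempty (Sub (d p) j) := sub_nonempty (Nat.le_of_lt_succ j.2)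
    have h0 := slot_le (hom := ρ p) (Nat.le_of_lt_succ j.2) (one_ne_zero) hc hM1 (hM σ hσ p j)
      (Q := 1) (z := z) (h := h) (by simpa [Q'] using key ⟨p, j, 0⟩)
    simpa [lev, size] using h0
  · exact slot_le (Nat.le_of_lt_succ j.2) hi hc hM1 (hM σ hσ p j)
      (by simpa [Q'] using key ⟨p, j, i.succ⟩)

omit [∀ p, ProperSpace (k p)] in
/-- Boundedly many candidates of one element have given sizes at all places. -/
theorem pack_ok (hfin : BoxFinite ρ) (F : Finset Γ) (A : ℝ) :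
    ∃ N : ℕ, ∀ (y : Γ) (M : ∀ p, Fin (d p + 1) → ℝ) (Z : Finset Γ),
      (∀ z ∈ Z, Cand ρ F A y z ∧ ∀ p, ∀ j : Fin (d p + 1), |size (ρ p) j z - M p j| ≤ A) →
        Z.card ≤ N := by
  classical
  set S : P → ℝ := fun p =>
    ∑ σ ∈ F, ∑ j : Fin (d p + 1), (Fintype.card (Sub (d p) j) : ℝ) * ‖cm (ρ p) j σ‖
  set C : P → ℝ := fun p => Real.exp (2 * |A|) * (1 + S p) with hC
  choose B hB using fun p => norm_div_le (k := k p) (d p) (C p)
  refine ⟨(hfin (∑ p, |B p|)).toFinset.card, fun y M Z hZ => ?_⟩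
  rcases Z.eq_empty_or_nonempty with rfl | ⟨z₀, h₀⟩
  · exact Nat.zero_le _
  have hA := le_abs_self A
  refine card_le_card_of_injOn (fun z => z₀⁻¹ * z) (fun z hz => ?_)
    fun a _ b _ h => mul_left_cancel h
  rw [mem_coe, Set.Finite.mem_toFinset]
  intro p
  refine le_trans ?_ (single_le_sum (f := fun p => |B p|) (fun p _ => abs_nonneg _) (mem_univ p))
  refine le_trans ?_ (le_abs_self _)
  have hone : ∀ z ∈ Z, ∀ j ≤ d p,
      ‖cm (ρ p) j z‖ * ‖cm (ρ p) j (z⁻¹ * y)‖ ≤ C p * ‖cm (ρ p) j y‖ := fun z hz j hj => by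
    obtain ⟨⟨h, ⟨σ, hσ, rfl⟩, hm⟩, -⟩ := hZ z hz
    rw [show z⁻¹ * (z * σ * h) = σ * h by group, cm_mul (ρ p) j σ h]
    refine (mul_le_mul_of_nonneg_left (norm_mul_le_card _ _) (norm_nonneg _)).trans ?_
    have e : ‖cm (ρ p) j z‖ * ‖cm (ρ p) j h‖ ≤
        Real.exp (2 * |A|) * ‖cm (ρ p) j (z * σ * h)‖ := by
      rw [← exp_size (ρ p) hj, ← exp_size (ρ p) hj, ← exp_size (ρ p) hj, ← Real.exp_add,
        ← Real.exp_add]
      exact Real.exp_le_exp.2
        (by linarith [(abs_le.1 (hm p ⟨j, Nat.lt_succ_of_le hj⟩)).1, abs_nonneg A])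
    have hs : (Fintype.card (Sub (d p) j) : ℝ) * ‖cm (ρ p) j σ‖ ≤ 1 + S p :=
      ((single_le_sum (f := fun j : Fin (d p + 1) =>
          (Fintype.card (Sub (d p) j) : ℝ) * ‖cm (ρ p) j σ‖) (fun _ _ => by positivity)
            (mem_univ ⟨j, Nat.lt_succ_of_le hj⟩)).trans
        (single_le_sum (f := fun σ => ∑ j : Fin (d p + 1),
          (Fintype.card (Sub (d p) j) : ℝ) * ‖cm (ρ p) j σ‖)
          (fun _ _ => sum_nonneg fun _ _ => by positivity) hσ)).trans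
        (le_add_of_nonneg_left zero_le_one)
    have h2 := mul_le_mul_of_nonneg_left e
      (show 0 ≤ (Fintype.card (Sub (d p) j) : ℝ) * ‖cm (ρ p) j σ‖ by positivity)
    have h3 := mul_le_mul_of_nonneg_right hs
      (show 0 ≤ Real.exp (2 * |A|) * ‖cm (ρ p) j (z * σ * h)‖ by positivity)
    rw [hC]
    linarith
  have comp : ∀ z ∈ Z, ∀ z' ∈ Z, ∀ j ≤ d p, ‖cm (ρ p) j z'‖ ≤ C p * ‖cm (ρ p) j z‖ := by
    intro z hz z' hz' j hj
    rw [hC, ← exp_size (ρ p) hj, ← exp_size (ρ p) hj]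
    refine le_trans ?_ (mul_le_mul_of_nonneg_right
      (le_mul_of_one_le_right (Real.exp_pos _).le (le_add_of_nonneg_right
        (sum_nonneg fun _ _ => sum_nonneg fun _ _ => by positivity))) (Real.exp_pos _).le)
    rw [← Real.exp_add]
    exact Real.exp_le_exp.2 (by
      linarith [(abs_le.1 ((hZ z hz).2 p ⟨j, Nat.lt_succ_of_le hj⟩)).1,
        (abs_le.1 ((hZ z' hz').2 p ⟨j, Nat.lt_succ_of_le hj⟩)).2])
  have hinv : ∀ w : Γ, (ρ p w : Matrix (Fin (d p)) (Fin (d p)) (k p)) *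
      (ρ p w⁻¹ : Matrix (Fin (d p)) (Fin (d p)) (k p)) = 1 :=
    fun w => by rw [← EX.coe_mul, mul_inv_cancel, EX.coe_one]
  have h := hB p _ _ _ _ (ρ p y : Matrix (Fin (d p)) (Fin (d p)) (k p)) (hinv z₀) (hinv z)
    (ρ p z₀).2 (ρ p z).2 (ρ p y).2 fun j hj => by
      have a := hone z₀ h₀ j hj
      have b := hone z hz j hj
      rw [cm_mul] at a b
      simp only [cm, ← cmp_mul] at a b
      exact ⟨a, b, comp z₀ h₀ z hz j hj, comp z hz z₀ h₀ j hj⟩
  rwa [EX.coe_mul]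

variable {O ι : Type} [DecidableEq Γ] [DecidableEq O] [Fintype ι] {G : SimpleGraph (Γ × O)}
  {nb : Γ × O → ι → Γ × O}

/-- Candidates of one product carry bounded mass from every vertex. -/
theorem flat_mass [Fintype O] (hl : Labelling G nb) (hinv : Inv G) (hconn : G.Connected)
    (hd : ∀ p, 0 < d p) (hdense : Dense ρ) (hfin : BoxFinite ρ)
    {p₀ : ℝ} (hp : 0 < p₀) (hp1 : p₀ ≤ 1) (F : Finset Γ) (A : ℝ) :
    ∃ C : ℝ, 0 ≤ C ∧ ∀ q, p₀ ≤ q → q ≤ 1 → Witness nb q →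
      ∀ (y : Γ) (w : Γ × O) (o' : O) (Z : Finset Γ), (∀ z ∈ Z, Cand ρ F A y z) →
        ∑ z ∈ Z, T nb q w (z, o') ≤ C := by
  classical
  set D₀ := ∑ p, d p with hD₀
  obtain ⟨F₁, A₁, hA₁, hest⟩ := exists_est ρ hdense D₀
  choose Λ hΛ using fun p => exists_axis (ρ p) F A
  set Λ₀ : ℝ := ∑ p, |Λ p| with hΛ₀
  have hΛ0 : 0 ≤ Λ₀ := sum_nonneg fun p _ => abs_nonneg _
  set D : ℝ := A₁ + 3 * Λ₀ with hD
  obtain ⟨N, hN⟩ := pack_ok ρ hfin F (|A| + Λ₀ + D₀ * (2 * D))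
  obtain ⟨K, hK0, hK⟩ := mass_of_fibres hl hinv hconn hp hp1 F₁
  refine ⟨K * N, by positivity, fun q hq hq1 hw y w o' Z hZ => ?_⟩
  choose X hX hax using fun p => hΛ p y
  let tests : ∀ p, ∀ j : Fin (d p + 1), Fin D₀ → Matrix (Sub (d p) j) (Sub (d p) j) (k p) :=
    fun p j i => if h : i.1 < d p then coordTest (X p) ⟨i.1, h⟩ j else 0
  choose R hR using fun z h : Γ => hest tests z h
  have h := hK q hq hq1 hw w o' Z (fun _ => 1) R N (Nat.cast_nonneg _) (fun _ => zero_le_one)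
    (fun z h => (hR z h).1) fun y' Z' hsub hZ' => ?_
  · simpa using h
  rw [sum_const, nsmul_eq_mul, mul_one]
  refine Nat.cast_le.2 ?_
  set ℓ : ∀ p, Fin (d p) → ℝ := fun p i => lev (ρ p) (coordTest (X p) i 1) y' with hℓ
  set μ : P → ℝ := fun p => (∑ i, ℓ p i) / d p with hμ
  refine hN y (fun p j => ∑ i : Fin j,
    (ℓ p (Fin.castLE (Nat.le_of_lt_succ j.2) i) - μ p)) Z' fun z hz => ?_
  obtain ⟨g, rfl⟩ := hZ' z hz
  have hc := hZ z (hsub hz)
  have hDpos : (0 : ℝ) ≤ D := by positivity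
  constructor
  · obtain ⟨h', hh, hm⟩ := hc
    have hnD : 0 ≤ (D₀ : ℝ) * (2 * D) := by positivity
    exact ⟨h', hh, fun p j => (hm p j).trans (by linarith [le_abs_self A])⟩
  intro p
  set W : Fin (d p) → ℝ := fun i =>
    Real.log ‖(X p * (ρ p z : Matrix (Fin (d p)) (Fin (d p)) (k p))) i‖ with hW
  set t : ℝ := size (ρ p) 1 g with ht
  set one : Fin (d p + 1) := ⟨1, Nat.succ_lt_succ (hd p)⟩
  have hdD : d p ≤ D₀ := single_le_sum (fun p _ => Nat.zero_le (d p)) (mem_univ p)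
  have hne : ∀ i, coordTest (X p) i 1 ≠ 0 := fun i h0 => by
    have e := norm_coordTest (X p) 1 i
    rw [h0, zero_mul, norm_zero, mul_one, eq_comm, norm_eq_zero] at e
    exact hX p (det_eq_zero_of_row_eq_zero i fun b => congrFun e b)
  have hrow : ∀ i, |ℓ p i - W i - t| ≤ A₁ := fun i => by
    have e : tests p one ⟨i.1, i.2.trans_le hdD⟩ = coordTest (X p) i 1 := dif_pos i.2
    have h1 := ((hR z g).2 p one).2 ⟨i.1, i.2.trans_le hdD⟩ (e ▸ hne i)
    rw [e] at h1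
    rwa [show lev (ρ p) (coordTest (X p) i one) z = W i from
      congrArg Real.log (norm_coordTest (X p) _ i)] at h1
  have hΛp : |Λ p| ≤ Λ₀ := single_le_sum (f := fun p => |Λ p|) (fun p _ => abs_nonneg _) (mem_univ p)
  have hsum : |∑ i, W i| ≤ Λ₀ := by
    have h1 := hax p z (hc.place ρ p) (d p) le_rfl
    have e : size (ρ p) (d p) z = 0 := by
      rw [size, cm, cmp_top, (ρ p z).2, norm_one, Real.log_one]
    rw [e, zero_sub, abs_neg] at h1
    simpa [hW] using h1.trans ((le_abs_self _).trans hΛp)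
  have hn0 : (0 : ℝ) < d p := Nat.cast_pos.2 (hd p)
  have hn1 : (1 : ℝ) ≤ d p := Nat.one_le_cast.2 (hd p)
  have ht' : |μ p - t| ≤ A₁ + Λ₀ := by
    have h1 : |∑ i, (ℓ p i - W i - t)| ≤ d p * A₁ :=
      (abs_sum_le_sum_abs _ _).trans ((sum_le_card_nsmul _ _ _ fun i _ => hrow i).trans_eq
        (by simp))
    rw [sum_sub_distrib, sum_sub_distrib, sum_const, card_univ, Fintype.card_fin,
      nsmul_eq_mul] at h1
    simp only [hμ]
    rw [div_sub' hn0.ne', abs_div, abs_of_pos hn0, div_le_iff₀ hn0]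
    have h2 : (d p : ℝ) * A₁ + Λ₀ ≤ (A₁ + Λ₀) * d p := by nlinarith
    refine le_trans ?_ h2
    calc |∑ i, ℓ p i - d p * t| = |(∑ i, ℓ p i - ∑ i, W i - d p * t) + ∑ i, W i| := by
          congr 1; ring
      _ ≤ _ := (abs_add_le _ _).trans (add_le_add h1 hsum)
  intro j
  have hj := hax p z (hc.place ρ p) j (Nat.le_of_lt_succ j.2)
  have hdd : |∑ i : Fin j, W (Fin.castLE (Nat.le_of_lt_succ j.2) i) -
      ∑ i : Fin j, (ℓ p (Fin.castLE (Nat.le_of_lt_succ j.2) i) - μ p)| ≤ D₀ * (2 * D) := by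
    rw [← sum_sub_distrib]
    refine (abs_sum_le_sum_abs _ _).trans ((sum_le_card_nsmul _ _ (2 * D) fun i _ => ?_).trans ?_)
    · have a1 := abs_le.1 (hrow (Fin.castLE (Nat.le_of_lt_succ j.2) i))
      have a2 := abs_le.1 ht'
      rw [abs_le, hD]
      constructor <;> linarith [a1.1, a1.2, a2.1, a2.2]
    · rw [nsmul_eq_mul, card_univ, Fintype.card_fin]
      exact mul_le_mul_of_nonneg_right
        (Nat.cast_le.2 ((Nat.le_of_lt_succ j.2).trans hdD)) (by positivity)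
  refine (abs_sub_le _ _ _).trans ((add_le_add hj hdd).trans ?_)
  linarith [le_abs_self (Λ p), abs_nonneg A]

/-- The bubble is bounded. -/
theorem bubble_mass [Fintype O] (hl : Labelling G nb) (hinv : Inv G) (hconn : G.Connected)
    (hd : ∀ p, 0 < d p) (hdense : Dense ρ) (hfin : BoxFinite ρ)
    {p₀ : ℝ} (hp : 0 < p₀) (hp1 : p₀ ≤ 1) :
    ∃ C : ℝ, ∀ q, p₀ ≤ q → q ≤ 1 → Witness nb q →
      ∀ (w : Γ × O) (o' : O) (Z : Finset Γ), ∑ z ∈ Z, T nb q w (z, o') ^ 2 ≤ C := by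
  obtain ⟨F, A, hA, hest⟩ := exists_est ρ hdense 0
  obtain ⟨C, hC0, hC⟩ := flat_mass ρ hl hinv hconn hd hdense hfin hp hp1 F A
  obtain ⟨K, hK0, hK⟩ := mass_of_fibres hl hinv hconn hp hp1 F
  refine ⟨K * C, fun q hq hq1 hw w o' Z => ?_⟩
  choose R hR using fun z h : Γ => hest (fun _ _ i => i.elim0) z h
  simp only [pow_two]
  refine hK q hq hq1 hw w o' Z (fun z => T nb q w (z, o')) R C hC0
    (fun z => T_nonneg (hp.le.trans hq) hq1 _ _) (fun z h => (hR z h).1)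
    fun y Z' _ hZ' => hC q hq hq1 hw y w o' Z' fun z hz => ?_
  obtain ⟨g, rfl⟩ := hZ' z hz
  exact ⟨g, ⟨R z g, (hR z g).1, rfl⟩, fun p j => ((hR z g).2 p j).1⟩

omit [DecidableEq Γ] in
/-- Children along one joint frame set keep the defects of `q` tests of order one at each place. -/
theorem exists_child (hd : ∀ p, 0 < d p) (hdense : Dense ρ) (q : ℕ) :
    ∃ (F : Finset Γ) (A : ℝ), 0 ≤ A ∧
      ∀ (Q : ∀ p, Fin q → Matrix (Fin (d p)) (Fin (d p)) (k p)) (w h : Γ), ∃ σ ∈ F,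
        Cand ρ F A (w * σ * h) w ∧ ∀ p,
          |lsize (ρ p) (w * σ * h) - lsize (ρ p) w - lsize (ρ p) h| ≤ A ∧
          ∀ i, Q p i ≠ 0 →
            |defect (ρ p) (Q p i) (w * σ * h) - defect (ρ p) (Q p i) w| ≤ A := by
  obtain ⟨F, A, hA, hest⟩ := exists_est ρ hdense q
  refine ⟨F, 2 * A, by positivity, fun Q w h => ?_⟩
  obtain ⟨σ, hσ, hs⟩ := hest (fun p j i => cmp j (Q p i)) w h
  refine ⟨σ, hσ, ⟨h, ⟨σ, hσ, rfl⟩, fun p j => (hs p j).1.trans (by linarith)⟩,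
    fun p => ⟨?_, fun i hi => ?_⟩⟩
  · have h1 : |size (ρ p) 1 (w * σ * h) - size (ρ p) 1 w - size (ρ p) 1 h| ≤ A :=
      (hs p ⟨1, Nat.succ_lt_succ (hd p)⟩).1
    rw [size_one, size_one, size_one] at h1
    linarith
  · have hne : cmp 1 (Q p i) ≠ 0 := fun e =>
      hi (norm_eq_zero.1 (by rw [← norm_cmp_one, e, norm_zero]))
    have h1 : |size (ρ p) 1 (w * σ * h) - size (ρ p) 1 w - size (ρ p) 1 h| ≤ A :=
      (hs p ⟨1, Nat.succ_lt_succ (hd p)⟩).1
    have h2 : |lev (ρ p) (cmp 1 (Q p i)) (w * σ * h) - lev (ρ p) (cmp 1 (Q p i)) w -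
        size (ρ p) 1 h| ≤ A := (hs p ⟨1, Nat.succ_lt_succ (hd p)⟩).2 i hne
    rw [size_one, size_one, size_one] at h1
    rw [lev_one, lev_one, size_one] at h2
    simp only [defect]
    rw [abs_le] at h1 h2 ⊢
    constructor <;> linarith

end Vale.Agent.P165.EX.Multi
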