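import Vale.Agent.P165.EX.Multi.Geo
import Vale.Agent.P165.EX.Instance

/-!
# Several places: the points over `ℤ[1/p]` and over `ℤ[√2]`

`SL(n, ℤ[1/p])` in `SL(n, ℝ) × SL(n, ℚ_p)` and `SL(n, ℤ[√2])` in `SL(n, ℝ) × SL(n, ℝ)` are Zariski
dense at each place and jointly box finite.
-/

namespace Vale.Agent.P165.EX.Multi

open Finset Matrix
open scoped Matrix.Norms.Elementwise MatrixGroups

variable {P : Type} {k : P → Type} [∀ p, NontriviallyNormedField (k p)]

/-- The points over a ring at all places. -/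
def ringHoms (n : ℕ) {R : Type} [CommRing R] (φ : ∀ p, R →+* k p) (p : P) :
    SL(n, R) →* SL(n, k p) :=
  ringHom n (φ p)

theorem ringHoms_dense {n : ℕ} (hn : 2 ≤ n) {R : Type} [CommRing R] [Infinite R]
    (φ : ∀ p, R →+* k p) (hφ : ∀ p, Function.Injective (φ p)) :
    Dense (ringHoms n φ) :=
  fun p => ringHom_dense hn (φ p) (hφ p)

theorem ringHoms_boxFinite [Fintype P] {n : ℕ} {R : Type} [CommRing R] (φ : ∀ p, R →+* k p)
    (hfin : ∀ C : ℝ, {r : R | ∀ p, ‖φ p r‖ ≤ C}.Finite) : BoxFinite (ringHoms n φ) := by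
  classical
  intro C
  have hbox : {A : Matrix (Fin n) (Fin n) R | ∀ a b, ∀ p, ‖φ p (A a b)‖ ≤ C}.Finite := by
    refine (Fintype.piFinset fun _ : Fin n => Fintype.piFinset fun _ : Fin n =>
      (hfin C).toFinset).finite_toSet.subset fun A hA => ?_
    simp only [Finset.mem_coe, Fintype.mem_piFinset]
    exact fun a b => (hfin C).mem_toFinset.2 (hA a b)
  exact (hbox.preimage Subtype.val_injective.injOn).subset fun g hg a b p =>
    (norm_entry_le_entrywise_sup_norm (ringHom n (φ p) g : Matrix (Fin n) (Fin n) (k p))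
      (i := a) (j := b)).trans (hg p)

/-- The ring `ℤ[1/p]`. -/
def invRing (p : ℕ) : Subring ℚ where
  carrier := {r | ∃ m, r.den ∣ p ^ m}
  one_mem' := ⟨0, by simp⟩
  zero_mem' := ⟨0, by simp⟩
  neg_mem' := fun {r} ⟨m, h⟩ => ⟨m, by rwa [Rat.neg_den]⟩
  add_mem' := fun {a b} ⟨i, hi⟩ ⟨j, hj⟩ =>
    ⟨i + j, (Rat.add_den_dvd a b).trans (pow_add p i j ▸ mul_dvd_mul hi hj)⟩
  mul_mem' := fun {a b} ⟨i, hi⟩ ⟨j, hj⟩ =>
    ⟨i + j, (Rat.mul_den_dvd a b).trans (pow_add p i j ▸ mul_dvd_mul hi hj)⟩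

instance (p : ℕ) : Infinite (invRing p) :=
  Infinite.of_injective (fun m : ℕ => (m : invRing p)) fun a b h => by
    simpa using congrArg (Subtype.val) h

/-- The places of `ℤ[1/p]`. -/
abbrev invPlace (p : ℕ) [Fact p.Prime] : Bool → Type
  | false => ℝ
  | true => ℚ_[p]

noncomputable instance (p : ℕ) [Fact p.Prime] : ∀ b, NontriviallyNormedField (invPlace p b)
  | false => inferInstanceAs (NontriviallyNormedField ℝ)
  | true => inferInstanceAs (NontriviallyNormedField ℚ_[p])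

instance (p : ℕ) [Fact p.Prime] : ∀ b, ProperSpace (invPlace p b)
  | false => inferInstanceAs (ProperSpace ℝ)
  | true => inferInstanceAs (ProperSpace ℚ_[p])

/-- The embeddings of `ℤ[1/p]`. -/
noncomputable def invEmb (p : ℕ) [Fact p.Prime] : ∀ b, invRing p →+* invPlace p b
  | false => (Rat.castHom ℝ).comp (invRing p).subtype
  | true => (Rat.castHom ℚ_[p]).comp (invRing p).subtype

theorem invEmb_injective (p : ℕ) [Fact p.Prime] : ∀ b, Function.Injective (invEmb p b)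
  | false => fun _ _ h => Subtype.ext ((Rat.castHom ℝ).injective h)
  | true => fun _ _ h => Subtype.ext ((Rat.castHom ℚ_[p]).injective h)

theorem invRing_balls (p : ℕ) [hp : Fact p.Prime] (C : ℝ) :
    {r : invRing p | ∀ b, ‖invEmb p b r‖ ≤ C}.Finite := by
  set B : ℕ := ⌈max C 1⌉₊
  refine (Set.Finite.preimage Subtype.val_injective.injOn
    (((Set.finite_Icc (-((B * B : ℕ) : ℤ)) (B * B : ℕ)).prod (Set.finite_Icc 0 B)).image
      fun e : ℤ × ℕ => (e.1 : ℚ) / e.2)).subset fun r hr => ?_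
  obtain ⟨r, m, hm⟩ := r
  have h1 : ‖((r : ℚ) : ℝ)‖ ≤ C := hr false
  have h2 : ‖(r : ℚ_[p])‖ ≤ C := hr true
  obtain ⟨i, -, hi⟩ := (Nat.dvd_prime_pow hp.1).1 hm
  have hden : r.den ≤ B := by
    rcases Nat.eq_zero_or_pos i with h | h
    · rw [hi, h, pow_zero]
      exact Nat.one_le_iff_ne_zero.2 (Nat.ceil_pos.2 (lt_max_of_lt_right one_pos)).ne'
    have hnum : ‖(r.num : ℚ_[p])‖ = 1 := by
      refine le_antisymm (Padic.norm_int_le_one _) (not_lt.1 fun hlt => ?_)
      rw [Padic.norm_intCast_lt_one_iff] at hlt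
      have hdvd : p ∣ r.num.natAbs.gcd r.den := Nat.dvd_gcd
        (Int.natCast_dvd.1 hlt) (hi ▸ dvd_pow_self p h.ne')
      rw [r.reduced] at hdvd
      exact hp.1.ne_one (Nat.dvd_one.1 hdvd)
    have hn : ‖(r : ℚ_[p])‖ = (r.den : ℝ) := by
      rw [Rat.cast_def, norm_div, hnum, hi, Nat.cast_pow, norm_pow, Padic.norm_p, inv_pow,
        one_div, inv_inv, Nat.cast_pow]
    exact_mod_cast ((hn ▸ h2).trans ((le_max_left C 1).trans (Nat.le_ceil _)))
  have hnum : |r.num| ≤ ((B * B : ℕ) : ℤ) := by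
    have e : (r.num : ℝ) = (r : ℝ) * r.den := by
      rw [Rat.cast_def, div_mul_cancel₀ _ (Nat.cast_ne_zero.2 r.den_nz)]
    have h3 : |(r.num : ℝ)| ≤ (B : ℝ) * B := by
      rw [e, abs_mul, Nat.abs_cast]
      exact mul_le_mul (h1.trans ((le_max_left C 1).trans (Nat.le_ceil _)))
        (Nat.cast_le.2 hden) (Nat.cast_nonneg _) (Nat.cast_nonneg _)
    exact_mod_cast h3
  exact ⟨(r.num, r.den), ⟨abs_le.1 hnum, ⟨Nat.zero_le _, hden⟩⟩, r.num_div_den⟩

/-- `SL(n, ℤ[1/p])` is Zariski dense at both places. -/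
theorem inv_dense {n : ℕ} (hn : 2 ≤ n) (p : ℕ) [Fact p.Prime] :
    Dense (ringHoms n (invEmb p)) :=
  ringHoms_dense hn _ (invEmb_injective p)

/-- `SL(n, ℤ[1/p])` is jointly box finite. -/
theorem inv_boxFinite (n p : ℕ) [Fact p.Prime] : BoxFinite (ringHoms n (invEmb p)) :=
  ringHoms_boxFinite _ (invRing_balls p)

/-- The two real embeddings of `ℤ[√2]`. -/
noncomputable def sqrtEmb : Bool → Zsqrtd 2 →+* ℝ :=
  fun b => Zsqrtd.lift ⟨if b then Real.sqrt 2 else -Real.sqrt 2, by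
    split_ifs <;> simp [Real.mul_self_sqrt]⟩

theorem sqrtEmb_apply (b : Bool) (z : Zsqrtd 2) :
    sqrtEmb b z = z.re + z.im * (if b then Real.sqrt 2 else -Real.sqrt 2) := rfl

theorem sqrt_dense {n : ℕ} (hn : 2 ≤ n) : Dense (ringHoms n sqrtEmb) := by
  have hi : Infinite (Zsqrtd 2) :=
    Infinite.of_injective (fun m : ℤ => (m : Zsqrtd 2)) fun a b h => by
      simpa using congrArg Zsqrtd.re h
  refine ringHoms_dense hn _ fun b => Zsqrtd.lift_injective _ fun m h => ?_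
  rcases eq_or_ne m 0 with rfl | hm
  · simp at h
  · have h4 : IsSquare (2 : ℕ) := ⟨m.natAbs, by
      have := congrArg Int.natAbs h
      simpa [Int.natAbs_mul] using this⟩
    exact Nat.prime_two.not_isSquare h4

theorem sqrt_boxFinite (n : ℕ) : BoxFinite (ringHoms n sqrtEmb) := by
  refine ringHoms_boxFinite _ fun C => ?_
  set B : ℤ := ⌈C⌉
  refine (((Set.finite_Icc (-B) B).prod (Set.finite_Icc (-B) B)).image
    fun e : ℤ × ℤ => (⟨e.1, e.2⟩ : Zsqrtd 2)).subset fun z hz => ?_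
  have h1 := hz true
  have h2 := hz false
  rw [sqrtEmb_apply, Real.norm_eq_abs] at h1 h2
  simp only [if_true, Bool.false_eq_true, if_false] at h1 h2
  rw [abs_le] at h1 h2
  have hre : |(z.re : ℝ)| ≤ C := abs_le.2 ⟨by linarith, by linarith⟩
  have him : |(z.im : ℝ) * Real.sqrt 2| ≤ C := abs_le.2 ⟨by linarith, by linarith⟩
  have him' : |(z.im : ℝ)| ≤ C := by
    refine le_trans ?_ him
    rw [abs_mul, abs_of_nonneg (Real.sqrt_nonneg 2)]
    exact le_mul_of_one_le_right (abs_nonneg _) (Real.one_le_sqrt.2 one_le_two)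
  refine ⟨(z.re, z.im), ⟨abs_le.1 ?_, abs_le.1 ?_⟩, rfl⟩
  · exact_mod_cast hre.trans (Int.le_ceil C)
  · exact_mod_cast him'.trans (Int.le_ceil C)

end Vale.Agent.P165.EX.Multi
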