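import Vale.Agent.P165.EX.Multi.Single
import Vale.Agent.P165.Pad.Main

/-!
# Clauses for the hand-in: several places in plain terms
-/

namespace Vale.Agent.P165.EX.Multi

open Matrix
open scoped MatrixGroups

/-- Entry boxes at all places and density at each place give a phase. -/
theorem phaseQT_places :
    ∀ (P : Type) [Fintype P] [Nonempty P] (k : P → Type) [∀ v, NontriviallyNormedField (k v)]
      [∀ v, ProperSpace (k v)] (d : P → ℕ), (∀ v, 2 ≤ d v) → ∀ (Γ : Type) [Group Γ]
      (ρ : ∀ v, Γ →* SL(d v, k v)),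
      (∀ R : ℝ, {g : Γ | ∀ v i j, ‖(ρ v g : Matrix (Fin (d v)) (Fin (d v)) (k v)) i j‖ ≤ R}.Finite) →
      (∀ v, ∀ f : MvPolynomial (Fin (d v) × Fin (d v)) (k v),
        (∀ g, MvPolynomial.eval (fun e => (ρ v g : Matrix (Fin (d v)) (Fin (d v)) (k v)) e.1 e.2) f = 0) →
          ∀ a : SL(d v, k v),
            MvPolynomial.eval (fun e => (a : Matrix (Fin (d v)) (Fin (d v)) (k v)) e.1 e.2) f = 0) →
      PhaseQT Γ := by
  intro P _ _ k _ _ d hd Γ _ ρ hfin hdense
  refine phaseQT_of_nonuniquePhase (phaseMulti P k d hd Γ ρ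
    (fun v => zariskiDense_range (ρ v) (hdense v)) ?_)
  open scoped Matrix.Norms.Elementwise in
  exact fun R => (hfin R).subset fun g hg v i j =>
    (norm_entry_le_entrywise_sup_norm (ρ v g : Matrix (Fin (d v)) (Fin (d v)) (k v)) (i := i) (j := j)).trans (hg v)
/-- The points over the integers with one prime inverted. -/
theorem phaseQT_inv (n p : ℕ) [Fact p.Prime] (hn : 2 ≤ n) : PhaseQT SL(n, invRing p) :=
  phaseQT_of_nonuniquePhase (nonuniquePhase_inv phaseMulti hn p)
/-- The points over the integers of the real quadratic field. -/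
theorem phaseQT_sqrt (n : ℕ) (hn : 2 ≤ n) : PhaseQT SL(n, Zsqrtd 2) :=
  phaseQT_of_nonuniquePhase (nonuniquePhase_sqrt phaseMulti hn)

end Vale.Agent.P165.EX.Multi
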