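import Vale.Agent.P165.EX.Multi.Geo
import Vale.Agent.P165.EX.BallCount
import Vale.Agent.P165.EX.Scale

/-!
# Several places: the ball count and one scale for all places

Products of boxes hold polynomially many elements, and among more than `|P| η ^ (-N)` ranges of
depths one is good for the covectors of every place at once.
-/

namespace Vale.Agent.P165.EX.Multi

open Finset Matrix
open scoped Matrix.Norms.Elementwise MatrixGroups

/-- Polynomially many cells cover a box, and two elements of one cell differ boundedly. -/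
theorem exists_grid {K : Type} [NontriviallyNormedField K] [ProperSpace K] {n : ℕ} {Γ : Type}
    [Group Γ] (hom : Γ →* SL(n, K)) :
    ∃ (C : ℝ) (D : ℕ) (B : ℝ), 0 ≤ C ∧ ∀ R : ℝ, 1 ≤ R →
      ∃ (T : Finset (Matrix (Fin n) (Fin n) K)) (u : Γ → Matrix (Fin n) (Fin n) K),
        (T.card : ℝ) ≤ C * R ^ D ∧
        (∀ g, ‖(hom g : Matrix (Fin n) (Fin n) K)‖ ≤ R → u g ∈ T) ∧
        ∀ g g', ‖(hom g : Matrix (Fin n) (Fin n) K)‖ ≤ R →
          ‖(hom g' : Matrix (Fin n) (Fin n) K)‖ ≤ R → u g = u g' →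
          ‖(hom (g⁻¹ * g') : Matrix (Fin n) (Fin n) K)‖ ≤ B := by
  classical
  have : ProperSpace (Matrix (Fin n) (Fin n) K) := FiniteDimensional.proper K _
  obtain ⟨c, hc2⟩ := NormedField.exists_lt_norm K 2
  have hc : 1 < ‖c‖ := by linarith
  obtain ⟨m, hm, hcover⟩ := exists_cover (k := K) (Matrix (Fin n) (Fin n) K) hc
  obtain ⟨d, hd⟩ := pow_unbounded_of_one_lt (m : ℝ) hc
  refine ⟨(m : ℝ) ^ (n + 2), d * (n + 1), 1 + n * n.factorial, by positivity, fun R hR => ?_⟩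
  obtain ⟨j, hj, hj'⟩ := exists_nat_pow_near hR hc
  set t := (n + 1) * (j + 1) + 1 with ht
  obtain ⟨T, hT, hTc⟩ := hcover t
  have hc0 : 0 < ‖c‖ := zero_lt_one.trans hc
  have hR0 : 0 ≤ R := zero_le_one.trans hR
  have near : ∀ g : Γ, ∃ u : Matrix (Fin n) (Fin n) K,
      ‖(hom g : Matrix (Fin n) (Fin n) K)‖ ≤ R → u ∈ T ∧
        ‖(c ^ (j + 1))⁻¹ • (hom g : Matrix (Fin n) (Fin n) K) - u‖ ≤ (‖c‖ ^ t)⁻¹ := fun g => by
    by_cases hg : ‖(hom g : Matrix (Fin n) (Fin n) K)‖ ≤ R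
    · obtain ⟨u, hu, hgu⟩ := hTc ((c ^ (j + 1))⁻¹ • (hom g : Matrix (Fin n) (Fin n) K)) (by
        rw [norm_smul, norm_inv, norm_pow, inv_mul_le_iff₀ (by positivity), mul_one]
        exact hg.trans hj'.le)
      exact ⟨u, fun _ => ⟨hu, hgu⟩⟩
    · exact ⟨0, fun h => absurd h hg⟩
  choose u hu using near
  refine ⟨T, u, ?_, fun g hg => (hu g hg).1, fun g g' hg hg' he => ?_⟩
  · calc (T.card : ℝ) ≤ (m : ℝ) ^ t := by exact_mod_cast hT
      _ = (m : ℝ) ^ (n + 2) * ((m : ℝ) ^ (n + 1)) ^ j := by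
          rw [ht, ← pow_mul, ← pow_add]; congr 1; ring
      _ ≤ _ := by
          refine mul_le_mul_of_nonneg_left ?_ (by positivity)
          calc ((m : ℝ) ^ (n + 1)) ^ j ≤ ((‖c‖ ^ d) ^ (n + 1)) ^ j :=
                pow_le_pow_left₀ (by positivity)
                  (pow_le_pow_left₀ (Nat.cast_nonneg _) hd.le _) _
            _ = (‖c‖ ^ j) ^ (d * (n + 1)) := by
                rw [← pow_mul, ← pow_mul, ← pow_mul]; congr 1; ring
            _ ≤ R ^ (d * (n + 1)) := pow_le_pow_left₀ (by positivity) hj _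
  set M := (hom g : Matrix (Fin n) (Fin n) K)
  set M' := (hom g' : Matrix (Fin n) (Fin n) K)
  have hclose : ‖M' - M‖ ≤ (R ^ n)⁻¹ := by
    have h1 : ‖(c ^ (j + 1))⁻¹ • (M' - M)‖ ≤ 2 * (‖c‖ ^ t)⁻¹ := by
      rw [smul_sub, show ∀ A B : Matrix (Fin n) (Fin n) K, A - B = A - u g' - (B - u g) from
        fun A B => by rw [he]; abel]
      exact (norm_sub_le _ _).trans (by linarith [(hu g hg).2, (hu g' hg').2])
    rw [norm_smul, norm_inv, norm_pow, inv_mul_le_iff₀ (by positivity)] at h1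
    refine h1.trans ?_
    rw [le_inv_comm₀ (by positivity) (by positivity), mul_inv, mul_inv, inv_inv,
      ← div_le_iff₀' (by positivity), div_inv_eq_mul, le_inv_mul_iff₀ two_pos]
    have h2 : R ^ n * ‖c‖ ^ (j + 1) ≤ ‖c‖ ^ ((n + 1) * (j + 1)) := by
      rw [show (n + 1) * (j + 1) = (j + 1) * n + (j + 1) by ring, pow_add (‖c‖) ((j + 1) * n),
        pow_mul]
      exact mul_le_mul_of_nonneg_right (pow_le_pow_left₀ hR0 hj'.le n) (by positivity)
    rw [ht, pow_succ]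
    calc 2 * (R ^ n * ‖c‖ ^ (j + 1)) ≤ ‖c‖ * ‖c‖ ^ ((n + 1) * (j + 1)) :=
          mul_le_mul hc2.le h2 (by positivity) hc0.le
      _ = _ := mul_comm _ _
  have e : (hom (g⁻¹ * g') : Matrix (Fin n) (Fin n) K) = 1 + M.adjugate * (M' - M) := by
    rw [map_mul, map_inv, Matrix.SpecialLinearGroup.coe_mul, Matrix.SpecialLinearGroup.coe_inv,
      mul_sub, adjugate_mul, Matrix.SpecialLinearGroup.det_coe, one_smul]
    abel
  refine (Matrix.norm_le_iff (by positivity)).2 fun a b => ?_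
  rw [e, Matrix.add_apply, Matrix.mul_apply]
  refine (norm_add_le _ _).trans (add_le_add ?_ ((norm_sum_le _ _).trans ?_))
  · rw [Matrix.one_apply]; split_ifs <;> simp
  · refine (sum_le_card_nsmul _ _ (n.factorial : ℝ) fun i _ => ?_).trans (by simp)
    rw [norm_mul]
    refine (mul_le_mul (adjugate_entry_le hR M
      (fun x y => (norm_entry_le_entrywise_sup_norm _).trans hg) a i)
      ((norm_entry_le_entrywise_sup_norm _).trans hclose) (norm_nonneg _) (by positivity)).trans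
      (le_of_eq ?_)
    rw [mul_assoc, mul_inv_cancel₀ (pow_ne_zero n (by linarith)), mul_one]

variable {P : Type} [Fintype P] {k : P → Type} [∀ p, NontriviallyNormedField (k p)]
  [∀ p, ProperSpace (k p)] {d : P → ℕ} {Γ : Type} [Group Γ] (ρ : ∀ p, Γ →* SL(d p, k p))

/-- A product of boxes of radius `R` holds at most `C R ^ D` elements. -/
theorem exists_ball_count (hfin : BoxFinite ρ) :
    ∃ (C : ℝ) (D : ℕ), 0 ≤ C ∧ ∀ R : ℝ, 1 ≤ R → ∀ S : Finset Γ,
      (∀ g ∈ S, ∀ p, ‖(ρ p g : Matrix (Fin (d p)) (Fin (d p)) (k p))‖ ≤ R) →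
        (S.card : ℝ) ≤ C * R ^ D := by
  classical
  choose C D B hC hgrid using fun p => exists_grid (ρ p)
  set N₀ := (hfin (∑ p, |B p|)).toFinset
  refine ⟨(N₀.card : ℝ) * ∏ p, C p, ∑ p, D p,
    mul_nonneg (Nat.cast_nonneg _) (prod_nonneg fun p _ => hC p), fun R hR S hS => ?_⟩
  choose T u hT hu hdiff using fun p => hgrid p R hR
  set U : Γ → ∀ p, Matrix (Fin (d p)) (Fin (d p)) (k p) := fun g p => u p g with hU
  have fibre : ∀ v ∈ Fintype.piFinset T, (S.filter fun g => U g = v).card ≤ N₀.card := by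
    intro v _
    rcases (S.filter fun g => U g = v).eq_empty_or_nonempty with h | ⟨g₀, hg₀⟩
    · simp [h]
    refine card_le_card_of_injOn (fun g => g₀⁻¹ * g) (fun g hg => ?_)
      fun _ _ _ _ h => mul_left_cancel h
    obtain ⟨hg₀S, rfl⟩ := mem_filter.1 hg₀
    obtain ⟨hgS, he⟩ := mem_filter.1 hg
    refine (hfin _).mem_toFinset.2 fun p => ?_
    exact (hdiff p g₀ g (hS g₀ hg₀S p) (hS g hgS p) (congrFun he p).symm).trans
      ((le_abs_self _).trans (single_le_sum (f := fun p => |B p|) (fun p _ => abs_nonneg _)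
        (mem_univ p)))
  have hcard : S.card ≤ N₀.card * ∏ p, (T p).card :=
    calc S.card = ∑ v ∈ Fintype.piFinset T, (S.filter fun g => U g = v).card :=
          card_eq_sum_card_fiberwise fun g hg =>
            Fintype.mem_piFinset.2 fun p => hu p g (hS g hg p)
      _ ≤ (Fintype.piFinset T).card * N₀.card :=
          (sum_le_card_nsmul _ _ _ fibre).trans_eq (smul_eq_mul _ _)
      _ = _ := by rw [Fintype.card_piFinset, mul_comm]
  calc (S.card : ℝ) ≤ N₀.card * ∏ p, ((T p).card : ℝ) := by exact_mod_cast hcard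
    _ ≤ N₀.card * ∏ p, (C p * R ^ D p) :=
        mul_le_mul_of_nonneg_left (prod_le_prod (fun p _ => Nat.cast_nonneg _) fun p _ => hT p)
          (Nat.cast_nonneg _)
    _ = _ := by rw [prod_mul_distrib, prod_pow_eq_pow_sum, mul_assoc]

omit [∀ p, ProperSpace (k p)] in
open Classical in
/-- Among `J > |P| η ^ (-N)` ranges one is good for the covectors of all places at once. -/
theorem exists_covector_scale {Y : Type} (α : P → Type) [∀ p, Fintype (α p)]
    [∀ p, Nonempty (α p)] (M : ∀ p, Y → Matrix (α p) (α p) (k p)) (U : Finset Y) (m : Y → ℝ)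
    (hm : ∀ y ∈ U, 0 ≤ m y) (hm1 : ∑ y ∈ U, m y ≤ 1) (lo hi : ℕ → ℝ) (hlo : ∀ i, lo i ≤ hi i)
    (hhi : ∀ i, 0 ≤ hi i)
    (hsep : ∀ i p, (Fintype.card (α p) : ℝ) *
      (hi i + Real.log (3 * (Fintype.card (α p) + 1))) ≤ lo (i + 1))
    {η : ℝ} (hη : 0 ≤ η) (hη1 : η ≤ 1) {N : ℕ} (hN : ∀ p, Fintype.card (α p) ≤ N) {J : ℕ}
    (hJ : (Fintype.card P : ℝ) < (J : ℝ) * η ^ N) :
    ∃ i < J, ∀ p, ∀ φ : α p → k p, φ ≠ 0 → ∃ φ' : α p → k p, φ' ≠ 0 ∧
      ∑ y ∈ U.filter (fun y => ‖φ ᵥ* M p y‖ ≤ Real.exp (-lo i) * (‖φ‖ * ‖M p y‖) ∧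
        ¬ ‖φ' ᵥ* M p y‖ ≤ Real.exp (-hi i) * (‖φ'‖ * ‖M p y‖)), m y ≤ η := by
  by_contra hbad
  push Not at hbad
  set F : P → ℝ → ℝ := fun p t => Scale.pot (Scale.Dep (M p)) U m t (Fintype.card (α p)) []
  have hanti : ∀ p s t, s ≤ t → F p t ≤ F p s := fun p s t h =>
    Scale.pot_anti (Scale.Dep (M p)) U m hm (Scale.dep_mono (M p)) h _ []
  set dp : P → ℕ → ℝ := fun p i =>
    (Fintype.card (α p) : ℝ) * (hi i + Real.log (3 * (Fintype.card (α p) + 1)))
  have hle : ∀ p i, lo i ≤ dp p i := fun p i => by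
    have hc1 : (1 : ℝ) ≤ Fintype.card (α p) := by exact_mod_cast Fintype.card_pos
    have hL : 0 ≤ Real.log (3 * ((Fintype.card (α p) : ℝ) + 1)) :=
      Real.log_nonneg (by linarith)
    refine (hlo i).trans ((le_add_of_nonneg_right hL).trans ?_)
    exact le_mul_of_one_le_left (add_nonneg (hhi i) hL) hc1
  have hdrop : ∀ i < J, η ^ N ≤ ∑ p, (F p (lo i) - F p (dp p i)) := fun i hi' => by
    obtain ⟨p, φ, hφ, hv⟩ := hbad i hi'
    refine (pow_le_pow_of_le_one hη hη1 (hN p)).trans (le_trans ?_ (single_le_sum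
      (f := fun p => F p (lo i) - F p (dp p i))
      (fun p _ => sub_nonneg.2 (hanti p _ _ (hle p i))) (mem_univ p)))
    refine Scale.pot_drop (Scale.Dep (M p)) (Scale.next (M p)) (hi i) U m hm
      (Scale.dep_mono (M p)) (hle p i) hη ⟨φ, hφ⟩
      (fun l hl hc w => Scale.spoil (M p) (hhi i) (Scale.exp_bound le_rfl) l hl hc w)
      (fun w => le_of_le_of_eq (hv w.1 w.2).le ?_) (Fintype.card (α p)) [] (by simp) trivial
      (by simp)
    exact sum_congr (by ext y; simp [Scale.Dep]) fun _ _ => rfl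
  have htel : ∀ p j, ∑ i ∈ range j, (F p (lo i) - F p (dp p i)) ≤ F p (lo 0) - F p (lo j) := by
    intro p j
    induction j with
    | zero => simp
    | succ j ih =>
      rw [sum_range_succ]
      linarith [hanti p _ _ (hsep j p)]
  have h1 : (J : ℝ) * η ^ N ≤ ∑ i ∈ range J, ∑ p, (F p (lo i) - F p (dp p i)) := by
    calc (J : ℝ) * η ^ N = ∑ _i ∈ range J, η ^ N := by simp
      _ ≤ _ := sum_le_sum fun i hi' => hdrop i (mem_range.1 hi')
  rw [sum_comm] at h1
  have h2 : ∑ p, ∑ i ∈ range J, (F p (lo i) - F p (dp p i)) ≤ Fintype.card P := by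
    refine (sum_le_card_nsmul _ _ (1 : ℝ) fun p _ => ?_).trans (by simp)
    have a : F p (lo 0) ≤ 1 := Scale.pot_le_one _ U m hm hm1 _ _ []
    have b : 0 ≤ F p (lo J) := Scale.pot_nonneg _ U m hm _ _ []
    linarith [htel p J]
  linarith

end Vale.Agent.P165.EX.Multi
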