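import Vale.Agent.P165.EX.Master
import Vale.Agent.P165.EX.Multi.Geo

/-!
# The master inequality at several places

The group-level master inequality with children whose sizes add up at every place.
-/

namespace Vale.Agent.P165.EX.Multi

open Finset FF
open scoped Matrix.Norms.Elementwise MatrixGroups

variable {P : Type} [Fintype P] {k : P → Type} [∀ p, NontriviallyNormedField (k p)]
  [∀ p, ProperSpace (k p)] {d : P → ℕ} {Γ : Type} [Group Γ] (ρ : ∀ p, Γ →* SL(d p, k p))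
  {O ι : Type} [DecidableEq Γ] [DecidableEq O] [Fintype ι] {G : SimpleGraph (Γ × O)}
  {nb : Γ × O → ι → Γ × O}

/-- The master inequality at several places. -/
theorem master [Fintype O] (hl : Labelling G nb) (hinv : Inv G) (hconn : G.Connected)
    (hd : ∀ p, 0 < d p) (hdense : Dense ρ) (hfin : BoxFinite ρ) (o₁ : O) {p₀ : ℝ} (hp : 0 < p₀)
    (hp1 : p₀ ≤ 1) (F : Finset Γ) (A : ℝ) :
    ∃ C₁ : ℝ, 0 ≤ C₁ ∧ ∀ S : Finset Γ, S.Nonempty → ∃ CS : ℝ, 0 ≤ CS ∧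
      ∀ q, p₀ ≤ q → q ≤ 1 → Witness nb q → ∀ ε : ℝ, 0 ≤ ε →
      (∀ X : Finset (Γ × O), ∑ x ∈ X, (∑ g ∈ S, T nb q (g, o₁) x) ^ 2 ≤ (ε * S.card) ^ 2) →
      ∀ U : Finset Γ, (∀ U' : Finset Γ, ∑ h ∈ U', anc nb o₁ q h ≤ 2 * ∑ h ∈ U, anc nb o₁ q h) →
      ∀ (m : ℕ) (o : O) (W₀ : Finset (Γ × O)), W₀ ⊆ QT.wball nb ((1 : Γ), o) m →
      ∀ r : ℝ, 0 < r → r ≤ 1 → (∀ w ∈ W₀, r ≤ T nb q ((1 : Γ), o) w) →
      ∀ R : Γ → Γ → Γ, (∀ z h, R z h ∈ F ∧ Cand ρ F A (z * R z h * h) z) →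
      ∀ Y : Finset Γ, (∀ w ∈ W₀, ∀ g ∈ S, ∀ h ∈ U, w.1 * R w.1 (g * h) * (g * h) ∈ Y) →
        (∑ w ∈ W₀, tauIn nb (QT.wball nb ((1 : Γ), o) m) q ((1 : Γ), o) w) *
            ∑ h ∈ U, anc nb o₁ q h ≤
          C₁ * ε * (∑ w ∈ QT.wball nb ((1 : Γ), o) m,
              tauIn nb (QT.wball nb ((1 : Γ), o) m) q ((1 : Γ), o) w) *
              ∑ h ∈ U, anc nb o₁ q h +
            CS * (1 + Real.log (1 / r)) * ∑ y ∈ Y, T nb q ((1 : Γ), o) (y, o₁) :=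
  master_of_flat hl hinv hconn o₁ hp hp1 F (Cand ρ F A)
    (flat_mass ρ hl hinv hconn hd hdense hfin hp hp1 F A)

end Vale.Agent.P165.EX.Multi
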