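import Vale.Agent.P165.EX.Multi.Instance
import Vale.Agent.P165.EX.Windows
import Vale.Agent.P165.SG.Classes

/-!
# Several places: from small rows to a phase, and examples

A phase for every jointly box-finite group with dense places gives it for `SL(n, ℤ[1/p])` and
`SL(n, ℤ[√2])`.
-/

namespace Vale.Agent.P165.EX.Multi

open Matrix FF
open scoped Matrix.Norms.Elementwise MatrixGroups

/-- The statement that every group with finitely many dense places and finite joint boxes has a
phase. -/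
def PhaseMulti : Prop :=
  ∀ (P : Type) [Fintype P] [Nonempty P] (k : P → Type) [∀ p, NontriviallyNormedField (k p)]
    [∀ p, ProperSpace (k p)] (d : P → ℕ) (_ : ∀ p, 2 ≤ d p) (Γ : Type) [Group Γ]
    (ρ : ∀ p, Γ →* SL(d p, k p)), Dense ρ → BoxFinite ρ → SG.NonuniquePhase Γ

/-- Small rows on every chart give the phase. -/
theorem phaseMulti_of_windows
    (h : ∀ (P : Type) [Fintype P] [Nonempty P] (k : P → Type) [∀ p, NontriviallyNormedField (k p)]
      [∀ p, ProperSpace (k p)] (d : P → ℕ) (_ : ∀ p, 2 ≤ d p) (Γ : Type) [Group Γ] [DecidableEq Γ]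
      [Infinite Γ] (ρ : ∀ p, Γ →* SL(d p, k p)), Dense ρ → BoxFinite ρ →
      ∀ (O : Type) [Fintype O] [DecidableEq O] [Nonempty O] (D : ℕ)
        (G : SimpleGraph (Γ × O)) (nb : Γ × O → Fin D → Γ × O),
        Labelling G nb → FF.Inv G → G.Connected → ∀ p, FQ.Sub nb p → WindowsBelow nb p) :
    PhaseMulti := by
  intro P _ _ k _ _ d hd Γ _ ρ hdense hfin
  classical
  obtain ⟨a⟩ := ‹Nonempty P›
  have := infinite_of_dense (hd a) (ρ a) (hdense a)
  exact nonuniquePhase_of_windows (h P k d hd Γ ρ hdense hfin)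

variable {n : ℕ}

theorem nonuniquePhase_inv (h : PhaseMulti) (hn : 2 ≤ n) (p : ℕ) [Fact p.Prime] :
    SG.NonuniquePhase SL(n, invRing p) :=
  h Bool (invPlace p) (fun _ => n) (fun _ => hn) _ _ (inv_dense hn p) (inv_boxFinite n p)

theorem nonuniquePhase_sqrt (h : PhaseMulti) (hn : 2 ≤ n) :
    SG.NonuniquePhase SL(n, Zsqrtd 2) :=
  h Bool (fun _ => ℝ) (fun _ => n) (fun _ => hn) _ _ (sqrt_dense hn) (sqrt_boxFinite n)

end Vale.Agent.P165.EX.Multi
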