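import Vale.Agent.P165.EX.Multi.Bad
import Vale.Agent.P165.EX.Multi.Master
import Vale.Agent.P165.EX.Multi.Phase
import Vale.Agent.P165.EX.Push

/-!
# A nonuniqueness phase for groups dense at finitely many places with finite joint boxes
-/

namespace Vale.Agent.P165.EX.Multi

open Finset FF
open scoped Matrix.Norms.Elementwise MatrixGroups

variable {P : Type} [Fintype P] [Nonempty P] {k : P → Type} [∀ p, NontriviallyNormedField (k p)]
  [∀ p, ProperSpace (k p)] {d : P → ℕ} {Γ : Type} [Group Γ] [DecidableEq Γ]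
  {O ι : Type} [DecidableEq O] [Fintype O] [Fintype ι] {G : SimpleGraph (Γ × O)}
  {nb : Γ × O → ι → Γ × O}

omit [Nonempty P] [DecidableEq Γ] in
/-- Boxes of bounded size. -/
theorem exists_count (ρ : ∀ p, Γ →* SL(d p, k p)) (hd : ∀ p, 0 < d p) (hfin : BoxFinite ρ) :
    ∃ (C : ℝ) (D : ℕ), 0 ≤ C ∧ ∀ t : ℝ, 0 ≤ t → ∀ S : Finset Γ, (∀ g ∈ S, sz ρ g ≤ t) →
      (S.card : ℝ) ≤ C * Real.exp ((D : ℝ) * t) := by
  obtain ⟨C, D, hC, hcount⟩ := exists_ball_count ρ hfin
  refine ⟨C, D, hC, fun t ht S hS => ?_⟩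
  rw [Real.exp_nat_mul]
  refine hcount _ (Real.one_le_exp ht) S fun g hg p => ?_
  rw [← Real.exp_log (norm_pos (ρ p) (hd p) g)]
  exact Real.exp_le_exp.2 ((lsize_le_sz ρ g p).trans (hS g hg))

/-- Small rows in finitely many windows. -/
theorem windowsBelow [Infinite Γ] [Nonempty O] (ρ : ∀ p, Γ →* SL(d p, k p)) (hd : ∀ p, 0 < d p)
    (hdense : Dense ρ) (hfin : BoxFinite ρ) (hl : Labelling G nb) (hinv : Inv G)
    (hconn : G.Connected) {p : ℝ} (hs : FQ.Sub nb p) : WindowsBelow nb p := by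
  classical
  obtain ⟨o₁⟩ := ‹Nonempty O›
  have hh0 : 0 < p / 2 := by linarith [hs.1]
  have hh1 : p / 2 ≤ 1 := by linarith [hs.1, hs.2.1]
  obtain ⟨F, A, hA, hchild⟩ := exists_child ρ hd hdense 2
  have hmaster : MasterRel nb o₁ (p / 2) F (Cand ρ F A) :=
    master ρ hl hinv hconn hd hdense hfin o₁ hh0 hh1 F A
  obtain ⟨Cbub, hbub⟩ := bubble_mass ρ hl hinv hconn hd hdense hfin hh0 hh1
  have hpush : PushBelow nb o₁ p := fun ε hε => exists_push hl hinv o₁ hh0.le hs.2.1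
    (fun q hq hq' => hbub q hq (hq'.le.trans hs.2.1) (hs.2.2 q (hh0.le.trans hq) hq')) hε
  have hR : ∃ R : Γ → Γ → Γ, ∀ z h, R z h ∈ F ∧ Cand ρ F A (z * R z h * h) z := by
    choose R h1 h2 _ using hchild fun _ => 0
    exact ⟨R, fun z h => ⟨h1 z h, h2 z h⟩⟩
  obtain ⟨Cw, hCw, hwin⟩ := sz_window ρ hd hl hinv
  obtain ⟨Ce, hCe, hlow⟩ := energy_ge ρ hd
  obtain ⟨Cb, D, hCb, hcount⟩ := exists_count ρ hd hfin
  have hvol := exists_volume hl hinv hconn o₁ hs hpush hR hmaster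
  have : Nonempty (State k d) := state_nonempty hd
  refine windowsBelow_of_parts (X := State k d) hl hs.1 hs.2.1 (sz := sz ρ) (En := energy ρ)
    (C₀ := Cw + Ce) (add_nonneg hCw hCe) (fun x g => ?_) (energy_cocycle ρ)
    (fun m o hm z hz => (hwin m o hm z hz).trans
      (mul_le_mul_of_nonneg_right (le_add_of_nonneg_right hCe) (Nat.cast_nonneg _)))
    hvol (exists_small hl hinv hconn o₁ hs hpush hR hmaster hCb hcount hvol)
    (exists_bad ρ hd ⟨Cw, hCw, hwin⟩ hl hinv hconn o₁ hs hpush hA hchild hmaster hvol)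
  exact (neg_le_neg (mul_le_mul_of_nonneg_right (le_add_of_nonneg_left hCw)
    (by linarith [sz_nonneg ρ g]))).trans (hlow x g)

omit [Fintype P] [Nonempty P] in
/-- Every group with finitely many dense places and finite joint boxes has a phase. -/
theorem phaseMulti : PhaseMulti :=
  phaseMulti_of_windows fun _ _ _ _ _ _ _ hd _ _ _ _ ρ hdense hfin _ _ _ _ _ _ _ hl hinv hconn _
    hs => windowsBelow ρ (fun p => (Nat.zero_lt_two).trans_le (hd p)) hdense hfin hl hinv hconn hs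

end Vale.Agent.P165.EX.Multi
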