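import Vale.Agent.P165.EX.Multi.Main
import Vale.Agent.P165.EX.Generation

/-!
# Subdirect products

If a group maps onto two groups with dense places and finite joint boxes, with finite joint kernel,
then all these places are dense for it with finite joint boxes. So it has a phase.
-/

namespace Vale.Agent.P165.EX.Multi

open Matrix
open scoped Matrix.Norms.Elementwise MatrixGroups

/-- Subdirect products of groups with finitely many dense places and finite joint boxes. -/
theorem nonuniquePhase_subdirect (h : PhaseMulti)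
    {P : Type} [Fintype P] [Nonempty P] {k : P → Type} [∀ p, NontriviallyNormedField (k p)]
    [∀ p, ProperSpace (k p)] {d : P → ℕ} (hd : ∀ p, 2 ≤ d p)
    {P' : Type} [Fintype P'] {k' : P' → Type} [∀ p, NontriviallyNormedField (k' p)]
    [∀ p, ProperSpace (k' p)] {d' : P' → ℕ} (hd' : ∀ p, 2 ≤ d' p)
    {Γ Γ' Δ : Type} [Group Γ] [Group Γ'] [Group Δ]
    (ρ : ∀ p, Γ →* SL(d p, k p)) (ρ' : ∀ p, Γ' →* SL(d' p, k' p))
    (hρ : Dense ρ) (hρ' : Dense ρ') (hb : BoxFinite ρ) (hb' : BoxFinite ρ')
    (f : Δ →* Γ) (f' : Δ →* Γ') (hf : Function.Surjective f) (hf' : Function.Surjective f')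
    (hker : {x : Δ | f x = 1 ∧ f' x = 1}.Finite) : SG.NonuniquePhase Δ := by
  letI inst : ∀ q : P ⊕ P', NontriviallyNormedField (Sum.elim k k' q) := fun q =>
    Sum.rec (motive := fun q => NontriviallyNormedField (Sum.elim k k' q))
      (fun p => inferInstanceAs (NontriviallyNormedField (k p)))
      (fun p => inferInstanceAs (NontriviallyNormedField (k' p))) q
  haveI : ∀ q : P ⊕ P', ProperSpace (Sum.elim k k' q) := fun q =>
    Sum.rec (motive := fun q => ProperSpace (Sum.elim k k' q))
      (fun p => inferInstanceAs (ProperSpace (k p)))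
      (fun p => inferInstanceAs (ProperSpace (k' p))) q
  let σ : ∀ q : P ⊕ P', Δ →* SL(Sum.elim d d' q, Sum.elim k k' q) := fun q =>
    Sum.rec (motive := fun q => Δ →* SL(Sum.elim d d' q, Sum.elim k k' q))
      (fun p => (ρ p).comp f) (fun p => (ρ' p).comp f') q
  refine h (P ⊕ P') (Sum.elim k k') (Sum.elim d d') (by rintro (p | p) <;> simp [hd, hd']) Δ σ ?_ ?_
  · rintro (p | p)
    · show SL.ZariskiDense (Set.range ((fun g => (ρ p g : Matrix (Fin (d p)) (Fin (d p)) (k p))) ∘ f))
      rw [hf.range_comp]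
      exact hρ p
    · show SL.ZariskiDense
        (Set.range ((fun g => (ρ' p g : Matrix (Fin (d' p)) (Fin (d' p)) (k' p))) ∘ f'))
      rw [hf'.range_comp]
      exact hρ' p
  · intro R
    refine Set.Finite.subset ?_ (fun x (hx : ∀ q, _) => show (f.prod f') x ∈
      {g : Γ | ∀ p, ‖(ρ p g : Matrix (Fin (d p)) (Fin (d p)) (k p))‖ ≤ R} ×ˢ
      {g : Γ' | ∀ p, ‖(ρ' p g : Matrix (Fin (d' p)) (Fin (d' p)) (k' p))‖ ≤ R} from
        ⟨fun p => hx (.inl p), fun p => hx (.inr p)⟩)
    refine ((hb R).prod (hb' R)).preimage' fun b _ => ?_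
    rcases Set.eq_empty_or_nonempty ((f.prod f') ⁻¹' {b}) with he | ⟨x₀, hx₀⟩
    · rw [he]; exact Set.finite_empty
    refine (hker.image (x₀ * ·)).subset fun x hx => ⟨x₀⁻¹ * x, ?_, by simp⟩
    have e : (f.prod f') x = (f.prod f') x₀ := (show _ = b from hx).trans (show _ = b from hx₀).symm
    constructor
    · have := congrArg Prod.fst e
      simp only [MonoidHom.prod_apply] at this
      simp [this]
    · have := congrArg Prod.snd e
      simp only [MonoidHom.prod_apply] at this
      simp [this]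

/-- Products of two integer linear groups, of any degrees. -/
theorem nonuniquePhase_int_prod {n m : ℕ} (hn : 2 ≤ n) (hm : 2 ≤ m) :
    SG.NonuniquePhase (SL(n, ℤ) × SL(m, ℤ)) := by
  have box : ∀ a : ℕ, BoxFinite fun _ : Unit => EX.ringHom a (Int.castRingHom ℝ) := fun a R =>
    (ringHom_discrete (n := a) (Int.castRingHom ℝ) int_balls R).subset fun g hg i j =>
      (norm_entry_le_entrywise_sup_norm _).trans (hg ())
  refine nonuniquePhase_subdirect phaseMulti (P := Unit) (P' := Unit) (fun _ => hn) (fun _ => hm)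
    (fun _ => EX.ringHom n (Int.castRingHom ℝ)) (fun _ => EX.ringHom m (Int.castRingHom ℝ))
    (fun _ => EX.ringHom_dense hn _ Int.cast_injective)
    (fun _ => EX.ringHom_dense hm _ Int.cast_injective) (box n) (box m)
    (MonoidHom.fst _ _) (MonoidHom.snd _ _) (fun g => ⟨(g, 1), rfl⟩) (fun g => ⟨(1, g), rfl⟩) ?_
  exact (Set.finite_singleton 1).subset fun x hx => Prod.ext hx.1 hx.2

end Vale.Agent.P165.EX.Multi
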