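import Vale.Agent.P165.EX.Multi.Main
import Vale.Agent.P165.EX.Phase

/-!
# One place as the special case
-/

namespace Vale.Agent.P165.EX.Multi

open Matrix
open scoped Matrix.Norms.Elementwise MatrixGroups

/-- Every group with one dense place and finite boxes has a phase. -/
theorem phaseSL {n : ℕ} (hn : 2 ≤ n) : PhaseSL n := fun k _ _ Γ _ ρ hd hfin =>
  phaseMulti Unit (fun _ => k) (fun _ => n) (fun _ => hn) Γ (fun _ => ρ) (fun _ => hd)
    fun R => (finite_norm_of_boxes ρ hfin R).subset fun _ hg => hg ()

end Vale.Agent.P165.EX.Multi
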