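import Vale.Agent.P165.EX.Multi.Count
import Vale.Agent.P165.EX.RowsSL

/-!
# Several places: sizes, states and energies for the weighted rows

The size is the sum over the places of the positive parts of the logarithmic sizes. A state is a
nonzero covector at every place and its energy the sum of the logarithmic stretches. These satisfy
the cocycle, lower and window bounds asked for by the three-part row bound.
-/

namespace Vale.Agent.P165.EX.Multi

open Finset Matrix FF
open scoped Matrix.Norms.Elementwise MatrixGroups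

section Place

variable {k : Type} [NontriviallyNormedField k] {n : ℕ} {Γ : Type} [Group Γ] (ρ : Γ →* SL(n, k))

/-- The logarithmic size is bounded below. -/
theorem lsize_ge (hn : 0 < n) (g : Γ) : -Real.log n.factorial ≤ lsize ρ g := by
  have h := abs_lsize_le ρ hn g
  have hf : 0 ≤ Real.log (n.factorial : ℝ) := Real.log_natCast_nonneg _
  rcases le_max_iff.1 h with h | h
  · linarith [abs_nonneg (lsize ρ g)]
  · linarith [neg_abs_le (lsize ρ g)]

theorem abs_lsize_le_pos (hn : 0 < n) (g : Γ) :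
    |lsize ρ g| ≤ max (lsize ρ g) 0 + Real.log n.factorial :=
  (abs_lsize_le ρ hn g).trans (max_le
    ((le_max_left _ _).trans (le_add_of_nonneg_right (Real.log_natCast_nonneg _)))
    (le_add_of_nonneg_left (le_max_right _ _)))

/-- The gap between the size and the stretch of a covector. -/
noncomputable def gap (φ : {φ : Fin n → k // φ ≠ 0}) (g : Γ) : ℝ := lsize ρ g - covLog ρ φ g

theorem gap_le (hn : 0 < n) (φ : {φ : Fin n → k // φ ≠ 0}) (g : Γ) :
    gap ρ φ g ≤ ((n : ℝ) + 1) * |lsize ρ g| + (Real.log n + Real.log n.factorial) := by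
  have h := (defect_bounds ρ hn (rowsOf_ne_zero hn φ.2) g).2
  rw [norm_rowsOf hn] at h
  rw [gap, covLog_eq ρ hn]
  linarith

theorem covLog_ge (hn : 0 < n) (φ : {φ : Fin n → k // φ ≠ 0}) (g : Γ) :
    -(((n : ℝ) + 2) * |lsize ρ g| + (Real.log n + Real.log n.factorial)) ≤ covLog ρ φ g := by
  have h := gap_le ρ hn φ g
  rw [gap] at h
  linarith [neg_abs_le (lsize ρ g)]

end Place

variable {P : Type} [Fintype P] {k : P → Type} [∀ p, NontriviallyNormedField (k p)] {d : P → ℕ}
  {Γ : Type} [Group Γ] (ρ : ∀ p, Γ →* SL(d p, k p))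

/-- A nonzero covector at every place. -/
abbrev State (k : P → Type) [∀ p, NontriviallyNormedField (k p)] (d : P → ℕ) : Type :=
  ∀ p, {φ : Fin (d p) → k p // φ ≠ 0}

/-- The size. -/
noncomputable def sz (g : Γ) : ℝ := ∑ p, max (lsize (ρ p) g) 0

/-- The energy of a state. -/
noncomputable def energy (x : State k d) (g : Γ) : ℝ := ∑ p, covLog (ρ p) (x p) g

omit [Fintype P] in
theorem state_nonempty (hd : ∀ p, 0 < d p) : Nonempty (State k d) :=
  ⟨fun p => ⟨fun _ => 1, fun h => one_ne_zero (congrFun h ⟨0, hd p⟩)⟩⟩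

theorem sz_nonneg (g : Γ) : 0 ≤ sz ρ g := sum_nonneg fun _ _ => le_max_right _ _

theorem lsize_le_sz (g : Γ) (p : P) : lsize (ρ p) g ≤ sz ρ g :=
  (le_max_left _ _).trans
    (single_le_sum (f := fun p => max (lsize (ρ p) g) 0) (fun _ _ => le_max_right _ _) (mem_univ p))

theorem abs_lsize_le_sz (hd : ∀ p, 0 < d p) (g : Γ) (p : P) :
    |lsize (ρ p) g| ≤ sz ρ g + Real.log (d p).factorial :=
  (abs_lsize_le_pos (ρ p) (hd p) g).trans (add_le_add
    (single_le_sum (f := fun p => max (lsize (ρ p) g) 0) (fun _ _ => le_max_right _ _) (mem_univ p))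
    le_rfl)

theorem energy_cocycle (x : State k d) (g : Γ) :
    ∃ x', ∀ h, energy ρ x (g * h) = energy ρ x g + energy ρ x' h := by
  choose x' hx' using fun p => covLog_mul (ρ p) (x p) g
  exact ⟨x', fun h => by
    rw [energy, energy, energy, ← sum_add_distrib]
    exact sum_congr rfl fun p _ => hx' p h⟩

theorem energy_ge (hd : ∀ p, 0 < d p) :
    ∃ C : ℝ, 0 ≤ C ∧ ∀ (x : State k d) g, -(C * (sz ρ g + 1)) ≤ energy ρ x g := by
  set c : P → ℝ := fun p => ((d p : ℝ) + 2) * (1 + Real.log (d p).factorial) +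
    (Real.log (d p) + Real.log (d p).factorial)
  have hc : ∀ p, 0 ≤ c p := fun p => by
    have := Real.log_natCast_nonneg (d p)
    have := Real.log_natCast_nonneg (d p).factorial
    simp only [c]; positivity
  refine ⟨∑ p, c p, sum_nonneg fun p _ => hc p, fun x g => ?_⟩
  rw [sum_mul, ← sum_neg_distrib]
  refine sum_le_sum fun p _ => le_trans ?_ (covLog_ge (ρ p) (hd p) (x p) g)
  refine neg_le_neg ?_
  have h1 := mul_le_mul_of_nonneg_left (abs_lsize_le_sz ρ hd g p)
    (show (0 : ℝ) ≤ (d p : ℝ) + 2 by positivity)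
  have hs := sz_nonneg ρ g
  have h2 := Real.log_natCast_nonneg (d p)
  have h3 := Real.log_natCast_nonneg (d p).factorial
  have h4 := mul_nonneg (mul_nonneg (show (0 : ℝ) ≤ (d p : ℝ) + 2 by positivity) h3) hs
  have h5 := mul_nonneg (add_nonneg h2 h3) hs
  simp only [c]
  linarith

theorem sz_mul_le (hd : ∀ p, 0 < d p) (g h : Γ) :
    sz ρ (g * h) ≤ sz ρ g + sz ρ h + ∑ p, Real.log (d p) := by
  rw [sz, sz, sz, ← sum_add_distrib, ← sum_add_distrib]
  refine sum_le_sum fun p _ => ?_
  have := rowsSizeMulLe (ρ p) (hd p) g h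
  have hl : 0 ≤ Real.log (d p : ℝ) := Real.log_nonneg (Nat.one_le_cast.2 (hd p))
  refine max_le ?_ ?_
  · linarith [le_max_left (lsize (ρ p) g) 0, le_max_left (lsize (ρ p) h) 0]
  · linarith [le_max_right (lsize (ρ p) g) 0, le_max_right (lsize (ρ p) h) 0]

variable {O ι : Type} [Fintype ι] [DecidableEq Γ] [DecidableEq O] {G : SimpleGraph (Γ × O)}
  {nb : Γ × O → ι → Γ × O}

theorem sz_window [Fintype O] (hd : ∀ p, 0 < d p) (hl : Labelling G nb) (hinv : Inv G) :
    ∃ C : ℝ, 0 ≤ C ∧ ∀ (n : ℕ) o, 1 ≤ n → ∀ z ∈ QT.wball nb ((1 : Γ), o) n,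
      sz ρ z.1 ≤ C * n := by
  classical
  set L := ∑ p, Real.log (d p : ℝ)
  have hL : 0 ≤ L := sum_nonneg fun p _ => Real.log_nonneg (Nat.one_le_cast.2 (hd p))
  have hs0 : ∀ g, 0 ≤ sz ρ g := fun g => sum_nonneg fun p _ => le_max_right _ _
  set S : Finset Γ := (univ : Finset (O × ι)).image fun e => (nb (1, e.1) e.2).1
  set B : ℝ := ∑ s ∈ S, sz ρ s + L
  have hB : 0 ≤ B := add_nonneg (sum_nonneg fun s _ => hs0 s) hL
  have h1 := hs0 (1 : Γ)
  refine ⟨sz ρ 1 + B, add_nonneg h1 hB, fun n o hn z hz => ?_⟩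
  have key : ∀ r z, z ∈ walkBall nb r ((1 : Γ), o) → sz ρ z.1 ≤ sz ρ 1 + r * B := by
    intro r
    induction r with
    | zero =>
      intro z hz
      simp only [walkBall, mem_singleton] at hz
      simp [hz]
    | succ r ih =>
      intro z hz
      simp only [walkBall, mem_image, mem_product, mem_univ, and_true] at hz
      obtain ⟨⟨u, j⟩, hu, rfl⟩ := hz
      have hadj : G.Adj ((1 : Γ), u.2) (tr u.1⁻¹ (nb u j)) := by
        rw [show ((1 : Γ), u.2) = tr u.1⁻¹ u by simp [tr], hinv u.1⁻¹ u (nb u j)]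
        exact hl.adj_nb u j
      obtain ⟨i, hi⟩ := (hl.adj _ _).1 hadj
      have hmem : u.1⁻¹ * (nb u j).1 ∈ S :=
        mem_image.2 ⟨(u.2, i), mem_univ _, by rw [hi]; rfl⟩
      have e : (nb u j).1 = u.1 * (u.1⁻¹ * (nb u j).1) := by group
      have h2 := sz_mul_le ρ hd u.1 (u.1⁻¹ * (nb u j).1)
      rw [← e] at h2
      have h3 : sz ρ (u.1⁻¹ * (nb u j).1) ≤ ∑ s ∈ S, sz ρ s :=
        single_le_sum (f := sz ρ) (fun s _ => hs0 s) hmem
      have := ih u hu
      push_cast
      linarith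
  obtain ⟨r, hr, hz⟩ := mem_biUnion.1 hz
  have hr' : (r : ℝ) ≤ n := by exact_mod_cast Nat.le_of_lt_succ (mem_range.1 hr)
  have hn' : (1 : ℝ) ≤ n := Nat.one_le_cast.2 hn
  have a := key r z hz
  have b := mul_le_mul_of_nonneg_right hr' hB
  have c := mul_le_mul_of_nonneg_left hn' h1
  linarith

end Vale.Agent.P165.EX.Multi
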